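import Vale.Agent.P354.H251.DefsN

/-!
Block B5 of the interior theorem: the Kerr interior near the inner horizon in double null form.
Definitions and exact statements.
-/

open scoped ContDiff
open Set Filter Topology

namespace Vale.Agent.P354R

open Vale.Agent.P354n (R4 IsConn Riem)

/-- The Ricci curvature of g is zero on D, in the words of IsVacuum. -/
def Vac (g : R4 → R4 → R4 → ℝ) (D : Set R4) : Prop :=
  ∃ G, ∀ y ∈ D, IsConn g G y ∧ ∃ E E' : Fin 4 → R4,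
    (∀ i j, g y (E i) (E' j) = if i = j then 1 else 0) ∧
    ∀ b c, ∑ i, Riem g G y (E i) b c (E' i) = 0

/-- g is a smooth field of symmetric nondegenerate bilinear forms on D. -/
structure Met (g : R4 → R4 → R4 → ℝ) (D : Set R4) : Prop where
  lin : ∀ y ∈ D, ∀ a, IsLinearMap ℝ (g y a)
  symm : ∀ y ∈ D, ∀ a b, g y a b = g y b a
  nondeg : ∀ y ∈ D, ∀ a, (∀ b, g y a b = 0) → a = 0
  smooth : ∀ a b, ContDiffOn ℝ ∞ (fun y => g y a b) D

/-- Christoffel symbols of the first kind: g (G a b) c for the connection G of g. -/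
noncomputable def chr (g : R4 → R4 → R4 → ℝ) (y a b c : R4) : ℝ :=
  (P354n.deriv (fun z => g z b c) y a + P354n.deriv (fun z => g z a c) y b -
    P354n.deriv (fun z => g z a b) y c) / 2

/-- On D', the map f is a smooth local diffeomorphism into D and g' is the pull back of g. -/
structure Pull (f : R4 → R4) (g' : R4 → R4 → R4 → ℝ) (D' : Set R4) (g : R4 → R4 → R4 → ℝ)
    (D : Set R4) : Prop where
  open' : IsOpen D'
  isOpen : IsOpen D
  met : Met g D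
  smooth : ContDiffOn ℝ ∞ f D'
  maps : MapsTo f D' D
  inj : ∀ y ∈ D', Function.Injective (fderiv ℝ f y)
  eq : ∀ y ∈ D', ∀ a b, g' y a b = g (f y) (fderiv ℝ f y a) (fderiv ℝ f y b)

/-- K2: covariance of the vacuum equations, and passage to the closure. -/
def K2 : Prop :=
  (∀ f g' D' g D, Pull f g' D' g D → Met g' D') ∧
  (∀ f g' D' g D, Pull f g' D' g D → Vac g D → Vac g' D') ∧
  (∀ f g' D' g D, Pull f g' D' g D → SurjOn f D' D → Vac g' D' → Vac g D) ∧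
  (∀ g D D0, IsOpen D → IsOpen D0 → D0 ⊆ D → D ⊆ closure D0 → Met g D → Vac g D0 → Vac g D) ∧
  (∀ f g' D' g D, Pull f g' D' g D → ∀ y ∈ D', ∀ a b c, chr g' y a b c =
    chr g (f y) (fderiv ℝ f y a) (fderiv ℝ f y b) (fderiv ℝ f y c) +
      g (f y) (fderiv ℝ (fun z => fderiv ℝ f z b) y a) (fderiv ℝ f y c))

/-! ### Kerr -/

/-- Delta and Sigma; z is the cosine of the polar angle. -/
def Del (M a r : ℝ) : ℝ := r ^ 2 - 2 * M * r + a ^ 2
def Sig (a r z : ℝ) : ℝ := r ^ 2 + a ^ 2 * z ^ 2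

/-- The Kerr metric in the Boyer-Lindquist coordinates (t, r, z, phi), z = cos theta. -/
noncomputable def kbl (M a : ℝ) (x A B : R4) : ℝ :=
  -(Del M a x.2.1 / Sig a x.2.1 x.2.2.1) * ((A.1 - a * (1 - x.2.2.1 ^ 2) * A.2.2.2) *
      (B.1 - a * (1 - x.2.2.1 ^ 2) * B.2.2.2)) +
    Sig a x.2.1 x.2.2.1 / Del M a x.2.1 * (A.2.1 * B.2.1) +
    Sig a x.2.1 x.2.2.1 / (1 - x.2.2.1 ^ 2) * (A.2.2.1 * B.2.2.1) +
    (1 - x.2.2.1 ^ 2) / Sig a x.2.1 x.2.2.1 * (((x.2.1 ^ 2 + a ^ 2) * A.2.2.2 - a * A.1) *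
      ((x.2.1 ^ 2 + a ^ 2) * B.2.2.2 - a * B.1))

/-- The domain of these coordinates. -/
def kdom (M a : ℝ) : Set R4 :=
  {x | Del M a x.2.1 ≠ 0 ∧ Sig a x.2.1 x.2.2.1 ≠ 0 ∧ 1 - x.2.2.1 ^ 2 ≠ 0}

/-- K1: the Kerr metric is a vacuum metric. -/
def K1 : Prop := ∀ M a, Met (kbl M a) (kdom M a) ∧ Vac (kbl M a) (kdom M a)

/-! ### The sphere in the two stereographic charts of P354E.st -/

/-- The height z, the forms dz and sin^2 theta dphi, the round metric, and the rotation field. -/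
noncomputable def ht (σ : Bool) (y : ℝ × ℝ) : ℝ :=
  (bif σ then 1 else -1) * ((1 - y.1 ^ 2 - y.2 ^ 2) / (1 + y.1 ^ 2 + y.2 ^ 2))
noncomputable def dht (σ : Bool) (y A : ℝ × ℝ) : ℝ :=
  (bif σ then 1 else -1) * (-4 * (y.1 * A.1 + y.2 * A.2) / (1 + y.1 ^ 2 + y.2 ^ 2) ^ 2)
noncomputable def alp (y A : ℝ × ℝ) : ℝ :=
  4 * (y.1 * A.2 - y.2 * A.1) / (1 + y.1 ^ 2 + y.2 ^ 2) ^ 2
noncomputable def rnd (y A B : ℝ × ℝ) : ℝ :=
  4 * (A.1 * B.1 + A.2 * B.2) / (1 + y.1 ^ 2 + y.2 ^ 2) ^ 2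
def rot (y : ℝ × ℝ) : ℝ × ℝ := (-y.2, y.1)

/-- The Kerr metric in the coordinates (t, r, y), y stereographic; this is kbl written with the
round metric dtheta^2 + sin^2 theta dphi^2 and the form sin^2 theta dphi, which are smooth on the
axis. -/
noncomputable def kerr (M a : ℝ) (σ : Bool) (x A B : R4) : ℝ :=
  -(Del M a x.2.1 / Sig a x.2.1 (ht σ x.2.2)) * ((A.1 - a * alp x.2.2 A.2.2) *
      (B.1 - a * alp x.2.2 B.2.2)) +
    Sig a x.2.1 (ht σ x.2.2) / Del M a x.2.1 * (A.2.1 * B.2.1) +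
    Sig a x.2.1 (ht σ x.2.2) * rnd x.2.2 A.2.2 B.2.2 +
    (a ^ 2 * (x.2.1 ^ 2 + a ^ 2 + Sig a x.2.1 (ht σ x.2.2)) * (alp x.2.2 A.2.2 * alp x.2.2 B.2.2) -
      a * (x.2.1 ^ 2 + a ^ 2) * (alp x.2.2 A.2.2 * B.1 + A.1 * alp x.2.2 B.2.2) +
      a ^ 2 * (1 - ht σ x.2.2 ^ 2) * (A.1 * B.1)) / Sig a x.2.1 (ht σ x.2.2)

/-- The inner and the outer horizon, the angular velocity of the inner horizon, and twice its
surface gravity. -/
noncomputable def rm (M a : ℝ) : ℝ := M - √(M ^ 2 - a ^ 2)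
noncomputable def rp (M a : ℝ) : ℝ := M + √(M ^ 2 - a ^ 2)
noncomputable def omm (M a : ℝ) : ℝ := a / (rm M a ^ 2 + a ^ 2)
noncomputable def kap (M a : ℝ) : ℝ := (rp M a - rm M a) / (rm M a ^ 2 + a ^ 2)

/-- The metric induced on the slice of constant r, in the coordinates z = (t, y) in which the angle
is phi - omm t, so that they rotate with the inner horizon. -/
noncomputable def hK (M a r : ℝ) (σ : Bool) (z A B : ℝ × ℝ × ℝ) : ℝ :=
  kerr M a σ (z.1, r, z.2) (A.1, 0, A.2 + (omm M a * A.1) • rot z.2)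
    (B.1, 0, B.2 + (omm M a * B.1) • rot z.2)

/-- The second fundamental form of this slice for the unit normal in the direction of
decreasing r. -/
noncomputable def kK (M a r : ℝ) (σ : Bool) (z A B : ℝ × ℝ × ℝ) : ℝ :=
  -(√(-(Del M a r / Sig a r (ht σ z.2))) / 2) * deriv (fun s => hK M a s σ z A B) r

/-! ### The background in double null form -/

/-- The arguments (d, exp (- k tau), height) of the coefficient functions; d = r0 - rm. -/
noncomputable def arg (k d : ℝ) (σ : Bool) (p : R4) : ℝ × ℝ × ℝ :=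
  (d, Real.exp (-k * p.1), ht σ p.2.2)

/-- rho = d exp (- k tau). -/
noncomputable def rho (k d : ℝ) (p : R4) : ℝ := d * Real.exp (-k * p.1)

/-- The metric of the spheres. -/
noncomputable def gam (k d : ℝ) (F : ℕ → ℝ × ℝ × ℝ → ℝ) (σ : Bool) (p : R4) (A B : ℝ × ℝ) : ℝ :=
  F 1 (arg k d σ p) * rnd p.2.2 A B + F 2 (arg k d σ p) * (dht σ p.2.2 A * dht σ p.2.2 B) +
    F 3 (arg k d σ p) * (alp p.2.2 A * dht σ p.2.2 B + dht σ p.2.2 A * alp p.2.2 B)

/-- The part A_theta - b dv(A) / 2 of the vector A; b = 2 rho F4 rot, dv = dtau + dx. -/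
noncomputable def hor (k d : ℝ) (F : ℕ → ℝ × ℝ × ℝ → ℝ) (σ : Bool) (p A : R4) : ℝ × ℝ :=
  A.2.2 - (rho k d p * F 4 (arg k d σ p) * (A.1 + A.2.1)) • rot p.2.2

/-- The metric Om^2 (- dtau^2 + dx^2) + gam (dtheta - b dv / 2) (dtheta - b dv / 2) with
Om^2 = rho F0, in the coordinates p = (tau, x, theta1, theta2); u = tau - x, v = tau + x. -/
noncomputable def bg (k d : ℝ) (F : ℕ → ℝ × ℝ × ℝ → ℝ) (σ : Bool) (p A B : R4) : ℝ :=
  rho k d p * F 0 (arg k d σ p) * (-(A.1 * B.1) + A.2.1 * B.2.1) +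
    gam k d F σ p (hor k d F σ p A) (hor k d F σ p B)

/-- The future unit normal of the slices of constant tau. -/
noncomputable def nrm (k d : ℝ) (F : ℕ → ℝ × ℝ × ℝ → ℝ) (σ : Bool) (p : R4) : R4 :=
  (√(rho k d p * F 0 (arg k d σ p)))⁻¹ •
    ((1 : ℝ), (0 : ℝ), (rho k d p * F 4 (arg k d σ p)) • rot p.2.2)

/-- The functions F of (d, exp (- k tau), height) describe, for 0 < d < eps, the part
r ≤ r0 = rm + d of the Kerr interior. -/
structure IsBg (M a ε : ℝ) (F : ℕ → ℝ × ℝ × ℝ → ℝ) : Prop where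
  smooth : ∀ i, ContDiff ℝ ∞ (F i)
  flat : ∀ i s z, F i (0, s, z) = F i (0, 0, z)
  pos : ∀ d s, ∀ z ∈ Icc (-1 : ℝ) 1, 0 < F 0 (d, s, z) ∧ 0 < F 1 (d, s, z) ∧
    0 < F 1 (d, s, z) * (F 1 (d, s, z) + (1 - z ^ 2) * F 2 (d, s, z)) -
      (1 - z ^ 2) ^ 2 * F 3 (d, s, z) ^ 2
  met : ∀ d > 0, ∀ σ, Met (bg (kap M a) d F σ) univ
  vac : ∀ d ∈ Ioo 0 ε, ∀ σ, Vac (bg (kap M a) d F σ) {p | Real.exp (-kap M a * p.1) < 3 / 2}
  first : ∀ d ∈ Ioo 0 ε, ∀ σ z A B,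
    bg (kap M a) d F σ (0, z) (0, A) (0, B) = hK M a (rm M a + d) σ z A B
  second : ∀ d ∈ Ioo 0 ε, ∀ σ z A B,
    -chr (bg (kap M a) d F σ) (0, z) (0, A) (0, B) (nrm (kap M a) d F σ (0, z)) =
      kK M a (rm M a + d) σ z A B

/-- B5. -/
def B5 : Prop := ∀ M a : ℝ, a ≠ 0 → |a| < M → ∃ ε > 0, ∃ F, IsBg M a ε F

end Vale.Agent.P354R
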