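import Vale.Agent.P354R.Iso
import Vale.Agent.P354RK.Main

/-!
The data induced by the background on the slice tau = 0.
-/

open scoped ContDiff
open Set Filter Topology

set_option linter.unusedSectionVars false
set_option maxSynthPendingDepth 3

namespace Vale.Agent.P354R

open Vale.Agent.P354n (R4)
open Par

lemma alp_add (σ : Bool) (y A : ℝ × ℝ) (c : ℝ) :
    alp y (A + c • rot y) = alp y A + c * (1 - ht σ y ^ 2) := by
  have := alp_sub σ y A (-c)
  rw [neg_smul, sub_neg_eq_add] at this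
  rw [this]
  ring

lemma rnd_add (σ : Bool) (y A B : ℝ × ℝ) (c c' : ℝ) : rnd y (A + c • rot y) (B + c' • rot y) =
    rnd y A B + c' * alp y A + c * alp y B + c * c' * (1 - ht σ y ^ 2) := by
  rw [one_sub_ht]
  simp only [rnd, alp, rot, Prod.fst_add, Prod.snd_add, Prod.smul_fst, Prod.smul_snd, smul_eq_mul]
  ring

lemma rnd_sub (σ : Bool) (y A B : ℝ × ℝ) (c c' : ℝ) : rnd y (A - c • rot y) (B - c' • rot y) =
    rnd y A B - c' * alp y A - c * alp y B + c * c' * (1 - ht σ y ^ 2) := by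
  have := rnd_add σ y A B (-c) (-c')
  rw [neg_smul, neg_smul, ← sub_eq_add_neg, ← sub_eq_add_neg] at this
  rw [this]
  ring

lemma arg_zero (k d : ℝ) (σ : Bool) (z : ℝ × ℝ × ℝ) : arg k d σ (0, z) = (d, 1, ht σ z.2) := by
  simp [arg]

lemma rho_zero (k d : ℝ) (z : ℝ × ℝ × ℝ) : rho k d (0, z) = d := by simp [rho]

lemma zero_mem_dom (k : ℝ) (z : ℝ × ℝ × ℝ) : ((0, z) : R4) ∈ dom k := by
  simp only [dom, mem_ofPred_eq, mul_zero, Real.exp_zero]
  norm_num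

lemma alg3 (a s w D x x' α α' R om Sg AA : ℝ) (e1 : Sg = s - a ^ 2 * w)
    (e2 : AA = s ^ 2 - a ^ 2 * w * D) (h1 : Sg ≠ 0) (h2 : AA ≠ 0) :
    -(D * Sg / AA) * (x * x') + (AA / Sg * (R - (a * (s - D) / AA - om) * x' * α -
      (a * (s - D) / AA - om) * x * α' + (a * (s - D) / AA - om) * x *
        ((a * (s - D) / AA - om) * x') * w) + a ^ 2 * (D - (s + Sg)) / Sg * (w * R - α * α')) =
    -(D / Sg) * ((x - a * (α + om * x * w)) * (x' - a * (α' + om * x' * w))) +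
      Sg * (R + om * x' * α + om * x * α' + om * x * (om * x') * w) +
      (a ^ 2 * (s + Sg) * ((α + om * x * w) * (α' + om * x' * w)) -
        a * s * ((α + om * x * w) * x' + x * (α' + om * x' * w)) + a ^ 2 * w * (x * x')) / Sg := by
  field_simp
  rw [e1, e2]
  ring

/-- kerr is kbl off the axis -/
lemma kerr_eq (M a : ℝ) (σ : Bool) (t r φ : ℝ) (y : ℝ × ℝ) (x x' : ℝ) (A B : ℝ × ℝ) (ψ ψ' : ℝ)
    (hy : 1 - ht σ y ^ 2 ≠ 0) (hS : Sig a r (ht σ y) ≠ 0) (hA : alp y A = (1 - ht σ y ^ 2) * ψ)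
    (hB : alp y B = (1 - ht σ y ^ 2) * ψ') :
    kerr M a σ (t, r, y) (x, 0, A) (x', 0, B) =
      kbl M a (t, r, ht σ y, φ) (x, 0, dht σ y A, ψ) (x', 0, dht σ y B, ψ') := by
  have r1 := rnd_id σ y A B
  have r2 : rnd y A B = _ / (1 - ht σ y ^ 2) := (eq_div_iff hy).2 ((mul_comm _ _).trans r1)
  simp only [kerr, kbl]
  rw [r2, hA, hB]
  have eS : r ^ 2 + a ^ 2 = Sig a r (ht σ y) + a ^ 2 * (1 - ht σ y ^ 2) := by unfold Sig; ring
  rw [eS]
  generalize 1 - ht σ y ^ 2 = w at *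
  generalize Sig a r (ht σ y) = Sg at *
  field_simp
  ring

lemma hK_cd (M a : ℝ) (σ : Bool) (A B : ℝ × ℝ × ℝ) {r : ℝ} (hr : 0 < r) (z : ℝ × ℝ × ℝ) :
    ContDiffAt ℝ ∞ (fun q : ℝ × ℝ × ℝ × ℝ => hK M a q.1 σ q.2 A B) (r, z) := by
  have h0 := ht_smooth σ
  have h1 : ContDiffAt ℝ ∞ (fun q : ℝ × ℝ × ℝ × ℝ => (Sig a q.1 (ht σ q.2.2))⁻¹) (r, z) := by
    refine ContDiffAt.inv (by unfold Sig; fun_prop) ?_
    unfold Sig
    positivity
  have h2 := isd_smooth.contDiffAt (x := (r, z))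
  simp only [hK, kerr, rnd, alp, rot, div_eq_mul_inv, Prod.fst_add, Prod.snd_add, Prod.smul_fst,
    Prod.smul_snd, smul_eq_mul, mul_zero, add_zero]
  simp only [Sig, Del] at h1 ⊢
  fun_prop

lemma kK_cont (M a : ℝ) (σ : Bool) (A B : ℝ × ℝ × ℝ) {r : ℝ} (hr : 0 < r) :
    Continuous fun z => kK M a r σ z A B := by
  have e : ∀ z, deriv (fun s => hK M a s σ z A B) r =
      fderiv ℝ (fun q : ℝ × ℝ × ℝ × ℝ => hK M a q.1 σ q.2 A B) (r, z) (1, 0) := fun z => by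
    have h1 : HasDerivAt (fun s : ℝ => ((s, z) : ℝ × ℝ × ℝ × ℝ)) (1, 0) r :=
      (hasDerivAt_id r).prodMk (hasDerivAt_const _ _)
    exact (((hK_cd M a σ A B hr z).differentiableAt (by simp)).hasFDerivAt.comp_hasDerivAt r h1).deriv
  have h1 : Continuous fun z : ℝ × ℝ × ℝ =>
      fderiv ℝ (fun q : ℝ × ℝ × ℝ × ℝ => hK M a q.1 σ q.2 A B) (r, z) (1, 0) := by
    refine continuous_iff_continuousAt.2 fun z => ?_
    have h2 := ((hK_cd M a σ A B hr z).fderiv_right (m := ∞) (by simp)).continuousAt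
    have h3 : ContinuousAt (fun z : ℝ × ℝ × ℝ => ((r, z) : ℝ × ℝ × ℝ × ℝ)) z := by fun_prop
    exact (ContinuousAt.comp (f := fun z : ℝ × ℝ × ℝ => ((r, z) : ℝ × ℝ × ℝ × ℝ)) h2 h3).clm_apply
      continuousAt_const
  have h0 := (ht_smooth σ).continuous
  simp only [kK, e]
  refine Continuous.mul (Continuous.neg (Continuous.div_const (Continuous.sqrt (Continuous.neg
    (Continuous.div continuous_const (by unfold Sig; fun_prop) fun z => ?_))) _)) h1
  unfold Sig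
  positivity

lemma chr_cont {g : R4 → R4 → R4 → ℝ} (hg : Met g univ) (a b : R4) {f n : R4 → R4}
    (hf : Continuous f) (hn : Continuous n) : Continuous fun q : R4 => chr g (f q) a b (n q) := by
  obtain ⟨h, r⟩ := P354RC.rp_of_met isOpen_univ hg
  have h1 : Continuous (fderiv ℝ h) := (contDiffOn_univ.1 r.sm).continuous_fderiv (by simp)
  simp only [r.chr (mem_univ _), P354RC.C1_ap]
  fun_prop

/-- the r-component of the second derivative of a map along a slice -/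
lemma snd_comp {f : R4 → R4} (hf : ContDiff ℝ ∞ f) (L : R4 →L[ℝ] ℝ) (w a b : R4)
    (h : ∀ t : ℝ, L (fderiv ℝ f (w + t • a) b) = 0) :
    L (fderiv ℝ (fun z => fderiv ℝ f z b) w a) = 0 := by
  have h1 : DifferentiableAt ℝ (fun z => fderiv ℝ f z b) w :=
    ((hf.fderiv_right (m := ∞) (by simp)).clm_apply contDiff_const).differentiable (by simp) w
  have h2 := L.hasFDerivAt.comp_hasDerivAt (0 : ℝ) (h1.hasFDerivAt.hasLineDerivAt a)
  have h3 : (L ∘ fun t : ℝ => fderiv ℝ f (w + t • a) b) = fun _ => 0 := funext h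
  rw [h3] at h2
  exact h2.unique (hasDerivAt_const _ _)

lemma bg_nrm (k d : ℝ) (F : ℕ → R3 → ℝ) (σ : Bool) (p V : R4) (hV : V.1 = 0) :
    bg k d F σ p V (nrm k d F σ p) = 0 := by
  have e : hor k d F σ p (nrm k d F σ p) = 0 := by
    simp only [hor, nrm, Prod.smul_fst, Prod.smul_snd, smul_eq_mul, mul_one, mul_zero, add_zero,
      smul_smul]
    rw [mul_comm, sub_self]
  unfold bg
  rw [e, hV]
  simp [gam, rnd, dht, alp, nrm]

namespace Cons

variable {P : Par} {ε : ℝ} {S : R3 → W4} {F : ℕ → R3 → ℝ} (h : Cons P ε S F) {d : ℝ}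
  (hd : d ∈ Ioo 0 (ε / 2)) (σ : Bool) {M : ℝ} (hM : (P.m + P.R) / 2 = M)
  (ho : omm M P.a = P.a / (P.m ^ 2 + P.a ^ 2))
include h hd

lemma at_one (y : ℝ × ℝ) : ((d, 1, ht σ y) : R3) ∈ box ε ∧
    ∀ i, F i (d, 1, ht σ y) = P.ff S i (d, 1, ht σ y) := by
  have := h.at_arg hd σ (zero_mem_dom P.k (0, y))
  rwa [arg_zero] at this

include hM ho

theorem first (z A B : ℝ × ℝ × ℝ) :
    bg P.k d F σ (0, z) (0, A) (0, B) = hK M P.a (P.m + d) σ z A B := by
  subst hM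
  obtain ⟨hc, hF⟩ := h.at_one hd σ z.2
  have k0 := h.chr.rho_f0 hc
  have k4 := h.chr.rho_f4 hc
  have kS := (h.chr.sg_pos hc).ne'
  have kA : P.aA S (d, 1, ht σ z.2) ≠ 0 := (h.chr.A_pos hc).ne'
  have ha := P.a2_pos.ne'
  have e1 : P.f1 S (d, 1, ht σ z.2) = P.aA S (d, 1, ht σ z.2) / P.sg S (d, 1, ht σ z.2) := by
    simp only [f1, eE, h.chr.pp_one]
    field_simp
    ring
  have e2 : P.f2 S (d, 1, ht σ z.2) = P.a ^ 2 * (P.Dl (P.m + d) - ((P.m + d) ^ 2 + P.a ^ 2 +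
      P.sg S (d, 1, ht σ z.2))) / P.sg S (d, 1, ht σ z.2) := by
    have eQ : P.aQ S (d, 1, ht σ z.2) = P.aA S (d, 1, ht σ z.2) := by
      simp only [aQ, aA, h.chr.zz_one]
    have eE1 : P.eE S (d, 1, ht σ z.2) = 1 := by
      simp only [eE, h.chr.pp_one]
      field_simp
      ring
    simp only [f2, eB, eT, eE1, eQ, h.chr.pp_one, h.chr.dz_zz_one, h.chr.dz_hh_one, h.chr.rad_one]
    field_simp
    ring
  have e3 : P.f3 S (d, 1, ht σ z.2) = 0 := by simp [f3, h.chr.dz_hh_one]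
  have r1 := rnd_id σ z.2 A.2 B.2
  have eS : P.sg S (d, 1, ht σ z.2) = Sig P.a (P.m + d) (ht σ z.2) := by
    simp only [sg, Sig, h.chr.rad_one, h.chr.zz_one]
  have a3 := alg3 P.a ((P.m + d) ^ 2 + P.a ^ 2) (1 - ht σ z.2 ^ 2) (P.Dl (P.m + d)) A.1 B.1
    (alp z.2 A.2) (alp z.2 B.2) (rnd z.2 A.2 B.2) (P.a / (P.m ^ 2 + P.a ^ 2))
    (P.sg S (d, 1, ht σ z.2)) (P.aA S (d, 1, ht σ z.2)) (by rw [eS]; unfold Sig; ring)
    (by simp only [aA, Q2, h.chr.rad_one, h.chr.zz_one]) kS kA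
  simp only [h.chr.rad_one, mul_one] at k0 k4
  simp only [bg, gam, hor, arg_zero, rho_zero, hF, ff, hK, kerr, dht_sub, alp_sub σ, rnd_sub σ,
    alp_add σ, rnd_add σ, ho, e1, e2, e3, k0, k4, Del_eq, ← eS]
  linear_combination a3 + P.a ^ 2 * (P.Dl (P.m + d) - ((P.m + d) ^ 2 + P.a ^ 2 +
      P.sg S (d, 1, ht σ z.2))) / P.sg S (d, 1, ht σ z.2) * (-r1)

theorem second_off (z : ℝ × ℝ × ℝ) (hz : z.2 ≠ 0) (A B : ℝ × ℝ × ℝ) :
    -P354R.chr (bg P.k d F σ) (0, z) (0, A) (0, B) (nrm P.k d F σ (0, z)) =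
      kK M P.a (P.m + d) σ z A B := by
  subst hM
  obtain ⟨w, ew, hw⟩ := pol_surj (p := (0, z)) hz
  have hw1 : w.1 = 0 := congrArg Prod.fst ew
  have hwd : w ∈ pdom P.k := ⟨by simpa [dom, hw1] using (by norm_num : (1 : ℝ) < 3 / 2), hw⟩
  obtain ⟨a, ea⟩ := P354RC.surj_of_inj (pol_inj hw) (0, A)
  obtain ⟨b, eb⟩ := P354RC.surj_of_inj (pol_inj hw) (0, B)
  obtain ⟨c, ec⟩ := P354RC.surj_of_inj (pol_inj hw) (nrm P.k d F σ (0, z))
  have e1 : ∀ w A : R4, (fderiv ℝ pol w A).1 = A.1 := fun w A => by rw [fderiv_pol]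
  have e2 : ∀ w A : R4, (fderiv ℝ pol w A).2.1 = A.2.1 := fun w A => by rw [fderiv_pol]
  have a1 : a.1 = 0 := by rw [← e1 w a, ea]
  have b1 : b.1 = 0 := by rw [← e1 w b, eb]
  have a2 : a.2.1 = A.1 := by rw [← e2 w a, ea]
  have b2 : b.2.1 = B.1 := by rw [← e2 w b, eb]
  have k1 := P354RC.k2.2.2.2.2 _ _ _ _ _ (pull_pol (k := P.k) (h.met hd σ univ)) w hwd a b c
  rw [ew, ea, eb, ec, bg_nrm _ _ _ _ _ _ (snd_comp pol_smooth (ContinuousLinearMap.fst ℝ ℝ _) w a b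
    fun t => (e1 _ b).trans b1), add_zero] at k1
  have k2 := P354RC.k2.2.2.2.2 _ _ _ _ _ (h.pull_phi hd σ P354RK.k1) w hwd a b c
  rw [← k1, k2]
  obtain ⟨hc, hF⟩ := h.at_one hd σ z.2
  have earg : arg P.k d σ (pol w) = (d, 1, ht σ z.2) := by rw [ew, arg_zero]
  have hc' : arg P.k d σ (pol w) ∈ box ε := earg ▸ hc
  have hw0 := one_sub_pos σ hz
  have ey : (pol w).2.2 = z.2 := by rw [ew]
  have fa := h.chr.fderiv_phi hc' hd.1 a _ earg.symm _ rfl
  have fb := h.chr.fderiv_phi hc' hd.1 b _ earg.symm _ rfl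
  have fc := h.chr.fderiv_phi hc' hd.1 c _ earg.symm _ rfl
  have hal := fun A => alp_pol σ w A
  rw [ey] at fa fb fc hal
  have ha4 := hal a
  have hb4 := hal b
  have hc4 := hal c
  rw [ea] at fa ha4
  rw [eb] at fb hb4
  rw [ec] at fc hc4
  set N := (√(d * P.f0 S (d, 1, ht σ z.2)))⁻¹ with hN
  have en : nrm P.k d F σ (0, z) = (N, 0, (N * (d * P.f4 S (d, 1, ht σ z.2))) • rot z.2) := by
    simp only [nrm, rho_zero, arg_zero, hF, ff, hN, Prod.smul_mk, smul_eq_mul, mul_one, mul_zero,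
      smul_smul]
  have c1 : c.1 = N := by rw [← e1 w c, ec, en]
  have c2 : c.2.1 = 0 := by rw [← e2 w c, ec, en]
  have c4 : c.2.2.2 = N * (d * P.f4 S (d, 1, ht σ z.2)) := by
    have := alp_add σ z.2 0 (N * (d * P.f4 S (d, 1, ht σ z.2)))
    rw [en] at hc4
    simp only [zero_add] at this hc4
    rw [this] at hc4
    simp only [alp, Prod.fst_zero, Prod.snd_zero, mul_zero, sub_self, zero_div, zero_add] at hc4
    exact (mul_left_cancel₀ hw0.ne' ((mul_comm _ _).trans hc4)).symm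
  have c3 : dht σ z.2 (nrm P.k d F σ (0, z)).2.2 = 0 := by
    have := dht_sub σ z.2 0 (-(N * (d * P.f4 S (d, 1, ht σ z.2))))
    rw [en]
    simp only [neg_smul, sub_neg_eq_add, zero_add] at this
    rw [this]
    simp [dht]
  simp only [h.chr.rad_one, h.chr.pp_one, h.chr.zz_one, h.chr.dz_zz_one, h.chr.dz_hh_one, a1, b1,
    a2, b2, c1, c2, c3, c4, mul_zero, zero_mul, zero_div, neg_zero, add_zero, zero_add, mul_one,
    sub_zero] at fa fb fc
  rw [mul_comm N, sub_self] at fc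
  set ν := P.Dl (P.m + d) / P.aA S (d, 1, ht σ z.2) * P.qq (P.m + d) (ht σ z.2) * N with hν
  have ephi : P.phi S d σ w = (w.2.1, P.m + d, ht σ z.2,
      w.2.2.2 + P.a / (P.m ^ 2 + P.a ^ 2) * w.2.1) := by
    simp only [phi, earg, h.chr.rad_one, h.chr.zz_one, h.chr.hh_one, sub_zero]
  have k3 : (fderiv ℝ (fun z => fderiv ℝ (P.phi S d σ) z b) w a).2.1 = 0 := by
    refine snd_comp (h.chr.phi_smooth d σ) ((ContinuousLinearMap.fst ℝ ℝ _).comp
      (ContinuousLinearMap.snd ℝ ℝ _)) w a b fun t => ?_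
    have et : arg P.k d σ (pol (w + t • a)) = (d, 1, ht σ (pol (w + t • a)).2.2) := by
      simp [arg, pol, hw1, a1]
    rw [h.chr.fderiv_phi0, fderiv_argp h.chr.rad_s, et, h.chr.dz_rad_one, b1]
    simp
  have k4 : ∀ x V : R4, V.2.1 = 0 → kbl ((P.m + P.R) / 2) P.a x V (0, ν, 0, 0) = 0 :=
    fun x V hV => by simp [kbl, hV]
  rw [fa, fb, fc, k4 _ _ k3, add_zero, ephi]
  have hr : 0 < P.m + d := add_pos P.hm hd.1
  have hev : (fun s => hK ((P.m + P.R) / 2) P.a s σ z A B) =ᶠ[𝓝 (P.m + d)] fun s =>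
      kbl ((P.m + P.R) / 2) P.a (w.2.1, s, ht σ z.2, w.2.2.2 + P.a / (P.m ^ 2 + P.a ^ 2) * w.2.1)
        (A.1, 0, dht σ z.2 A.2, a.2.2.2 + P.a / (P.m ^ 2 + P.a ^ 2) * A.1)
        (B.1, 0, dht σ z.2 B.2, b.2.2.2 + P.a / (P.m ^ 2 + P.a ^ 2) * B.1) := by
    filter_upwards [Ioi_mem_nhds hr] with s hs
    have hs' : (0 : ℝ) < s := hs
    have d1 := fun (V : ℝ × ℝ) (c : ℝ) => dht_sub σ z.2 V (-c)
    simp only [neg_smul, sub_neg_eq_add] at d1
    have := kerr_eq ((P.m + P.R) / 2) P.a σ z.1 s (w.2.2.2 + P.a / (P.m ^ 2 + P.a ^ 2) * w.2.1) z.2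
      A.1 B.1 (A.2 + (P.a / (P.m ^ 2 + P.a ^ 2) * A.1) • rot z.2)
      (B.2 + (P.a / (P.m ^ 2 + P.a ^ 2) * B.1) • rot z.2)
      (a.2.2.2 + P.a / (P.m ^ 2 + P.a ^ 2) * A.1) (b.2.2.2 + P.a / (P.m ^ 2 + P.a ^ 2) * B.1)
      hw0.ne' (by unfold Sig; positivity) (by rw [alp_add σ, ha4]; ring)
      (by rw [alp_add σ, hb4]; ring)
    rw [d1, d1] at this
    simp only [hK, ho]
    rw [this]
    rfl
  have hD : HasDerivAt (fun s => hK ((P.m + P.R) / 2) P.a s σ z A B)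
      (deriv (fun s => hK ((P.m + P.R) / 2) P.a s σ z A B) (P.m + d)) (P.m + d) := by
    have h1 : DifferentiableAt ℝ (fun s : ℝ => ((s, z) : ℝ × ℝ × ℝ × ℝ)) (P.m + d) := by fun_prop
    exact (DifferentiableAt.comp (f := fun s : ℝ => ((s, z) : ℝ × ℝ × ℝ × ℝ)) (P.m + d)
      ((hK_cd _ _ σ A B hr z).differentiableAt (by simp)) h1).hasDerivAt
  have hD2 := (hD.congr_of_eventuallyEq hev.symm)
  have hD3 : HasDerivAt (fun t : ℝ => P.m + d + t * ν) ν 0 := lin1 _ _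
  have hD4 := (HasDerivAt.comp_of_eq 0 hD2 hD3 (by simp)).deriv
  have kν : ν = -√(-(Del ((P.m + P.R) / 2) P.a (P.m + d) / Sig P.a (P.m + d) (ht σ z.2))) := by
    have k0 := h.chr.rho_f0 hc
    have kD := h.chr.Dl_neg hc hd.1 one_pos
    have kS := h.chr.sg_pos hc
    have kA := h.chr.A_pos hc
    have eS : P.sg S (d, 1, ht σ z.2) = Sig P.a (P.m + d) (ht σ z.2) := by
      simp only [sg, Sig, h.chr.rad_one, h.chr.zz_one]
    have eA : P.aA S (d, 1, ht σ z.2) = P.Q2 (P.m + d) (ht σ z.2) := by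
      simp only [aA, h.chr.rad_one, h.chr.zz_one]
    simp only [h.chr.rad_one, h.chr.zz_one, mul_one] at k0 kD kA
    rw [eS] at kS
    rw [hν, hN, k0, eS, eA, Del_eq]
    have q2 := P.qq_sq kA
    have q0 := P.qq_pos kA
    rw [← q2]
    generalize P.qq (P.m + d) (ht σ z.2) = q at *
    generalize Sig P.a (P.m + d) (ht σ z.2) = Sg at *
    generalize P.Dl (P.m + d) = D at *
    have h1 : 0 < -(D / Sg) := neg_pos.2 (div_neg_of_neg_of_pos kD kS)
    have s1 := Real.sqrt_pos.2 h1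
    have s2 := Real.sq_sqrt h1.le
    have s3 : √(-(D * Sg / q ^ 2)) = √(-(D / Sg)) * Sg / q := by
      have s4 : -(D * Sg / q ^ 2) = -(D / Sg) * Sg ^ 2 / q ^ 2 := by field_simp
      rw [Real.sqrt_eq_iff_mul_self_eq (by rw [s4]; positivity) (by positivity)]
      have : D = -(√(-(D / Sg)) ^ 2 * Sg) := by rw [s2]; field_simp
      generalize √(-(D / Sg)) = u at *
      rw [this]
      field_simp
    rw [s3]
    have : D = -(√(-(D / Sg)) ^ 2 * Sg) := by rw [s2]; field_simp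
    generalize √(-(D / Sg)) = u at *
    rw [this]
    field_simp
  have k5 : ∀ x V W : R4, V.2.1 = 0 → P354n.deriv (fun y => kbl ((P.m + P.R) / 2) P.a y V
      (0, ν, 0, 0)) x W = 0 := fun x V W hV => by
    simp only [k4 _ V hV, P354n.deriv, lineDeriv, deriv_const]
  unfold P354R.chr
  rw [k5 _ _ _ rfl, k5 _ _ _ rfl]
  simp only [P354n.deriv, lineDeriv, Prod.smul_mk, Prod.mk_add_mk, smul_eq_mul, mul_zero, add_zero]
  simp only [Function.comp_def] at hD4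
  rw [hD4, kK, kν]
  ring

theorem second (z A B : ℝ × ℝ × ℝ) :
    -P354R.chr (bg P.k d F σ) (0, z) (0, A) (0, B) (nrm P.k d F σ (0, z)) =
      kK M P.a (P.m + d) σ z A B := by
  have h1 : Continuous fun z : ℝ × ℝ × ℝ => nrm P.k d F σ (0, z) := by
    have h0 := (ht_smooth σ).continuous
    have h4 := (h.smooth 4).continuous
    have h5 := (h.smooth 0).continuous
    simp only [nrm, rho_zero, arg_zero, rot]
    have h6 : Continuous fun z : ℝ × ℝ × ℝ => (√(d * F 0 (d, 1, ht σ z.2)))⁻¹ :=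
      Continuous.inv₀ (by fun_prop) fun z =>
        (Real.sqrt_pos.2 (mul_pos hd.1 (h.pos d 1 _ (ht_mem σ z.2)).1)).ne'
    fun_prop
  have h2 : Continuous fun p : R4 =>
      -P354R.chr (bg P.k d F σ) (0, p.2) (0, A) (0, B) (nrm P.k d F σ (0, p.2)) :=
    (chr_cont (h.met hd σ univ) (0, A) (0, B) (f := fun p => (0, p.2))
      (n := fun p => nrm P.k d F σ (0, p.2)) (continuous_const.prodMk continuous_snd)
      (h1.comp continuous_snd)).neg
  have h3 : Continuous fun p : R4 => kK M P.a (P.m + d) σ p.2 A B :=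
    (kK_cont M P.a σ A B (add_pos P.hm hd.1)).comp continuous_snd
  have h4 := mem_closure_axis (D := univ) (fun _ _ _ _ => mem_univ _) (mem_univ ((0, z) : R4))
  have h5 : {p : R4 | p ∈ univ ∧ p.2.2 ≠ 0} ⊆ {p : R4 |
      -P354R.chr (bg P.k d F σ) (0, p.2) (0, A) (0, B) (nrm P.k d F σ (0, p.2)) =
        kK M P.a (P.m + d) σ p.2 A B} := fun p hp => h.second_off hd σ hM ho p.2 hp.2 A B
  have h6 := (isClosed_eq h2 h3).closure_subset_iff.2 h5 h4
  exact h6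

end Cons

/-- The constants of Kerr. -/
noncomputable def par {M a : ℝ} (ha : a ≠ 0) (hM : |a| < M) : Par where
  a := a
  m := rm M a
  R := rp M a
  k := kap M a
  hm := by
    have h0 : 0 < M := (abs_nonneg a).trans_lt hM
    have h1 : 0 < a ^ 2 := by positivity
    exact sub_pos.2 ((Real.sqrt_lt' h0).2 (by linarith))
  hR := by
    have h1 : a ^ 2 < M ^ 2 := by rw [← sq_abs a]; gcongr
    have := Real.sqrt_pos.2 (sub_pos.2 h1)
    unfold rm rp
    linarith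
  ha := by
    have h1 : a ^ 2 < M ^ 2 := by rw [← sq_abs a]; gcongr
    have := Real.sq_sqrt (sub_pos.2 h1).le
    unfold rm rp
    linear_combination this
  hk := div_mul_cancel₀ _ (by positivity)

theorem b5 : B5 := by
  intro M a ha hM
  obtain ⟨ε, hε, S, F, h⟩ := exists_cons (par ha hM)
  have e1 : ((par ha hM).m + (par ha hM).R) / 2 = M := by
    simp only [par, rm, rp]
    ring
  exact ⟨ε / 2, by positivity, F, h.smooth, h.flat, h.pos,
    fun d hd σ => bg_met σ h.smooth h.pos hd _, fun d hd σ => h.vac hd σ P354RK.k1,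
    fun d hd σ => h.first hd σ e1 rfl, fun d hd σ => h.second hd σ e1 rfl⟩

end Vale.Agent.P354R
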