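import Vale.Agent.P354R.QL
import Vale.Agent.P354R.Slice
import Vale.Agent.P354I.Iface
import Vale.Agent.P354Q.Conv
import Vale.Agent.P354J.Uq
import Vale.Agent.P354JK.Main
import Vale.Agent.P354IK.Kpd

/-!
The Kerr background of the frame system.
-/

open scoped ContDiff
open Set Filter Topology

set_option linter.unusedSectionVars false

namespace Vale.Agent.P354R

open Vale.Agent.P354n (R4 IsConn)
open Vale.Agent.P354H (X3 Sb sl)
open Vale.Agent.P354C Vale.Agent.P354C.Ix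
open Vale.Agent.P354A (U0 isQ)

lemma met_alg (μ o p0 p1 p2 p3 G c d c' d' s s' t t' : ℝ) (hμ : μ ≠ 0) (ho : o ≠ 0)
    (hD : p0 * p3 - p1 * p2 ≠ 0) (hG : G * (p0 * p3 - p1 * p2) ^ 2 =
      (p3 * c - p2 * d) * (p3 * c' - p2 * d') + (p0 * d - p1 * c) * (p0 * d' - p1 * c')) :
    (μ * o) ^ 2 * (-(2 * (s * t' + t * s')) +
      (μ * (o * p3) * c - μ * (o * p2) * d) /
          (μ * (o * p0) * (μ * (o * p3)) - μ * (o * p1) * (μ * (o * p2))) *
        ((μ * (o * p3) * c' - μ * (o * p2) * d') /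
          (μ * (o * p0) * (μ * (o * p3)) - μ * (o * p1) * (μ * (o * p2)))) +
      (μ * (o * p0) * d - μ * (o * p1) * c) /
          (μ * (o * p0) * (μ * (o * p3)) - μ * (o * p1) * (μ * (o * p2))) *
        ((μ * (o * p0) * d' - μ * (o * p1) * c') /
          (μ * (o * p0) * (μ * (o * p3)) - μ * (o * p1) * (μ * (o * p2))))) =
    μ ^ 2 * o ^ 2 * -(2 * (s * t' + t * s')) + G := by
  have e : μ * (o * p0) * (μ * (o * p3)) - μ * (o * p1) * (μ * (o * p2)) =
      μ ^ 2 * o ^ 2 * (p0 * p3 - p1 * p2) := by ring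
  rw [e]
  generalize p0 * p3 - p1 * p2 = D at *
  field_simp
  linear_combination -hG

lemma exp_half (k t : ℝ) : Real.exp (-k * t / 2) ^ 2 = Real.exp (-k * t) := by
  rw [sq, ← Real.exp_add]
  ring_nf

lemma arQ_qm (k : ℝ) {d : ℝ} (hd : 0 ≤ d) (σ : Bool) (x : R4) :
    arQ σ (qm k (√d) x) = arg k d σ x := by
  simp only [arQ, qm, arg, Real.sq_sqrt hd, exp_half]

lemma mu_qm (k : ℝ) {d : ℝ} (hd : 0 ≤ d) (x : R4) : mu (qm k (√d) x) ^ 2 = rho k d x := by
  simp only [mu, qm, rho, mul_pow, Real.sq_sqrt hd, exp_half]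

lemma mu_qm_pos (k : ℝ) {d : ℝ} (hd : 0 < d) (x : R4) : 0 < mu (qm k (√d) x) :=
  mul_pos (Real.sqrt_pos.2 hd) (Real.exp_pos _)

/-- the frame of the background -/
noncomputable def UK (k d : ℝ) (F : ℕ → R3 → ℝ) (σ : Bool) (p : ℕ → R4 → ℝ) (x : R4) : Ix → ℝ :=
  V0 F σ p (qm k (√d) x)

namespace Hyp

variable {F : ℕ → R3 → ℝ} {σ : Bool} {p : ℕ → R4 → ℝ} (h : Hyp F σ p) (k : ℝ) {d : ℝ} (hd : 0 < d)
include h hd

lemma met_eq : met (UK k d F σ p) = bg k d F σ := by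
  funext x a b
  have e1 := arQ_qm k hd.le σ x
  have e2 := mu_qm k hd.le x
  have e3 : oh F σ (qm k (√d) x) ^ 2 = F 0 (arg k d σ x) := by
    rw [← e1]
    exact Real.sq_sqrt (h.F0_pos _).le
  have e4 : ∀ A B, gam k d F σ x A B = gq F σ (qm k (√d) x) A B := fun A B => by
    simp only [gam, gq, e1]
    rfl
  have e5 : ∀ a : R4, hor k d F σ x a =
      (a.2.2.1 - UK k d F σ p x b1 * ((a.1 + a.2.1) / 2),
        a.2.2.2 - UK k d F σ p x b2 * ((a.1 + a.2.1) / 2)) := fun a => by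
    simp only [hor, UK, V0, Vh, nn, e1, e2, rot]
    refine Prod.ext ?_ ?_ <;> simp [qm] <;> ring
  have h1 := met_alg (mu (qm k (√d) x)) (oh F σ (qm k (√d) x)) _ _ _ _ _ _ _ _ _
    ((a.1 + a.2.1) / 2) ((b.1 + b.2.1) / 2) ((a.1 - a.2.1) / 2) ((b.1 - b.2.1) / 2)
    (mu_qm_pos k hd x).ne' (h.oh_pos _).ne' (h.fr.det (qm k (√d) x)).ne'
    (h.fr.met (qm k (√d) x) (hor k d F σ x a) (hor k d F σ x b))
  rw [e2, e3, ← e4] at h1
  have h2 : met (UK k d F σ p) x a b = rho k d x * F 0 (arg k d σ x) *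
      -(2 * ((a.1 + a.2.1) / 2 * ((b.1 - b.2.1) / 2) + (a.1 - a.2.1) / 2 * ((b.1 + b.2.1) / 2))) +
      gam k d F σ x (hor k d F σ x a) (hor k d F σ x b) := by
    rw [← h1, e5 a, e5 b]
    simp only [met, eta, th, detP, UK, V0, Vh, nn, pow_one]
    rfl
  rw [h2]
  unfold bg
  ring

lemma UK_s (i : Ix) : ContDiff ℝ ∞ fun x => UK k d F σ p x i := (h.V0_s i).comp (qm_smooth k _)

lemma UK_O (x : R4) : 0 < UK k d F σ p x O := by
  simp only [UK, V0, Vh, nn, pow_one]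
  exact mul_pos (mu_qm_pos k hd x) (h.oh_pos _)

lemma UK_det (x : R4) : 0 < detP (UK k d F σ p x) := by
  have h1 := mul_pos (pow_pos (mu_qm_pos k hd x) 2) (h.det_pos (qm k (√d) x))
  simp only [detP, UK, V0, nn, pow_one] at h1 ⊢
  linarith

lemma dfr_UK (x : R4) : dfr (UK k d F σ p) x = dQ k (V0 F σ p) (qm k (√d) x) :=
  dfr_qm h.V0_s k _ x

lemma UK_br (x : R4) : br (UK k d F σ p x) (dfr (UK k d F σ p) x) 1 2 3 =
    br (UK k d F σ p x) (dfr (UK k d F σ p) x) 1 3 2 := by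
  rw [brA, brB, h.dfr_UK k hd]
  congr 1
  set q := qm k (√d) x
  have e1 : ∀ j, fderiv ℝ (fun z => oh F σ z * p j z) q (Tq k q (P354C.fr (V0 F σ p q) 1)) =
      -(k / 2 * q.2.1) * (dS (oh F σ) q * p j q + oh F σ q * dS (p j) q) := fun j => by
    rw [← dS_mul h.oh_s (h.fr.smooth j)]
    have : Tq k q (P354C.fr (V0 F σ p q) 1) = (-(k / 2 * q.2.1)) • ((0, 1, 0, 0) : R4) := by
      simp [Tq, fr1]
    rw [this, map_smul]
    rfl
  simp only [dE_vals, h.d01 k q 1 (Or.inr rfl), dh, or_true, if_true, Vh, e1, UK, V0, nn, pow_one]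
  change mu q * _ * _ - mu q * _ * _ = mu q * _ * _ - mu q * _ * _
  linear_combination -(k / 2 * q.2.1) * mu q ^ 2 * oh F σ q ^ 2 * h.fr.rot q

lemma L1_UK : L1 (UK k d F σ p) = fun x => G1 k F σ p (qm k (√d) x) := by
  funext x
  unfold L1
  rw [h.dfr_UK k hd]
  exact h.lift1_V0 k (mu_qm_pos k hd x).ne'

lemma L2_UK : L2 (UK k d F σ p) = fun x => G2 k F σ p (qm k (√d) x) := by
  funext x
  unfold L2
  rw [h.L1_UK k hd, dfr_qm (h.G1_s k)]
  rfl

lemma L2_base (x : R4) : ∀ i ∈ [O, b1, b2, P11, P12, P21, P22],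
    L2 (UK k d F σ p) x i = UK k d F σ p x i := by
  simp only [List.mem_cons, List.not_mem_nil, or_false, forall_eq_or_imp, forall_eq]
  exact ⟨rfl, rfl, rfl, rfl, rfl, rfl, rfl⟩

lemma nU_eq (x : R4) : P354J.nU (L2 (UK k d F σ p) x) = nrm k d F σ x := by
  have e1 := arQ_qm k hd.le σ x
  have e2 := mu_qm k hd.le x
  have e3 : √(rho k d x * F 0 (arg k d σ x)) = UK k d F σ p x O := by
    rw [Real.sqrt_eq_iff_mul_self_eq (mul_pos (rho_pos hd x) (e1 ▸ h.F0_pos _)).le (h.UK_O k hd x).le,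
      ← e1, ← e2, ← Real.sq_sqrt (h.F0_pos (qm k (√d) x)).le]
    simp only [UK, V0, Vh, nn, oh]
    ring
  have e4 := (h.UK_O k hd x).ne'
  unfold nrm P354J.nU
  rw [e3, fr0, fr1]
  change (2 * UK k d F σ p x O)⁻¹ • (((1 : ℝ), (1 : ℝ), UK k d F σ p x b1, UK k d F σ p x b2) +
    ((1 : ℝ), (-1 : ℝ), (0 : ℝ), (0 : ℝ))) = _
  have e5 : UK k d F σ p x b1 = -(2 * (rho k d x * F 4 (arg k d σ x)) * x.2.2.2) := by
    simp only [UK, V0, Vh, nn, e1, e2]
    simp only [qm]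
    ring
  have e6 : UK k d F σ p x b2 = 2 * (rho k d x * F 4 (arg k d σ x)) * x.2.2.1 := by
    simp only [UK, V0, Vh, nn, e1, e2]
    simp only [qm]
    ring
  rw [e5, e6]
  simp only [rot, Prod.smul_mk, Prod.mk_add_mk, smul_eq_mul, Prod.mk.injEq]
  refine ⟨?_, ?_, ?_, ?_⟩ <;> field_simp <;> ring

variable (hv : Vac (bg k d F σ) (dom k))
include hv

lemma full {x : R4} (hx : x ∈ dom k) : Full (L2 (UK k d F σ p) x) (dfr (L2 (UK k d F σ p)) x) := by
  obtain ⟨G, hG⟩ := hv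
  refine (P354Q.conv _ (dom k) (dom_open k) (fun i _ => (h.UK_s k hd i).contDiffOn) fun x _ =>
    ⟨(h.UK_det k hd x).ne', (h.UK_O k hd x).ne', h.UK_br k hd x⟩).2.2.2.2 G (fun y hy => ?_) x hx
  rw [h.met_eq k hd]
  exact hG y hy

lemma L2_s (i : Ix) : ContDiff ℝ ∞ fun x => L2 (UK k d F σ p) x i := by
  rw [h.L2_UK k hd]
  exact (h.G2_s k i).comp (qm_smooth k _)

lemma ind {x : R4} (hx : x ∈ dom k) (a b : X3) :
    P354J.hf (L2 (UK k d F σ p) x) a b = bg k d F σ x (0, a) (0, b) ∧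
    P354J.Kf (L2 (UK k d F σ p) x) a b = -chr (bg k d F σ) x (0, a) (0, b) (nrm k d F σ x) := by
  have hm : met (L2 (UK k d F σ p)) = bg k d F σ := h.met_eq k hd
  obtain ⟨_, h1⟩ := P354J.ind (L2 (UK k d F σ p)) x (h.UK_det k hd x).ne' (h.UK_O k hd x).ne'
  obtain ⟨_, _, h2, h3⟩ := h1 a b
  have h4 := (P354Q.vac (L2 (UK k d F σ p)) (dom k) (dom_open k)
    (fun i => (h.L2_s k hd hv i).contDiffOn) (fun y hy => ⟨(h.UK_det k hd y).ne',
      (h.UK_O k hd y).ne', (h.full k hd hv hy).tor, (h.full k hd hv hy).dO⟩) x hx).1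
  rw [hm] at h2 h3 h4
  refine ⟨h2.symm, ?_⟩
  rw [← h3, h.nU_eq k hd, bg_symm, chr, ← h4]
  ring

end Hyp

lemma pm_self (s : ℝ) (m : ℕ) (d : P354I.Dat) : P354I.pm s m d d = 0 := by
  simp [P354I.pm, P354I.wn]

lemma exists_chart {y : P354I.X} (hy : y ≠ 0) : ∃ σ, ‖y‖ + P354E.sg σ * y 2 ≠ 0 := by
  by_contra h
  push Not at h
  have h1 := h true
  have h2 := h false
  simp only [P354E.sg, cond_true, cond_false] at h1 h2
  exact hy (norm_eq_zero.1 (by linarith))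

theorem bk (hS : P354J.SL2) : P354I.BK := by
  intro M a ha hM
  obtain ⟨ε, hε, F, hB⟩ := b5 M a ha hM
  choose p hp using fun σ => exists_fr σ hB.smooth hB.flat hB.pos
  have h : ∀ σ, Hyp F σ (p σ) := fun σ =>
    ⟨hB.smooth, hB.flat, fun d s z hz => (hB.pos d s z hz).1, hp σ⟩
  set k := kap M a with hk
  have k0 : 0 < k := (par ha hM).k_pos
  have hR : rm M a < rp M a := (par ha hM).hR
  have hm : 0 < rm M a := (par ha hM).hm
  obtain ⟨C1, c1, hC1⟩ := Van.bd_fam (ι := Bool × Ix)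
    (G := fun j q => cut q * (G2 k F j.1 (p j.1) q j.2 - U0 k j.2)) (fun j => van_cut
      (((h j.1).G2_s k j.2).sub contDiff_const)
      (fun s y => by rw [(h j.1).G2_bdry k (Or.inl rfl), sub_self])
      (fun e y => by rw [(h j.1).G2_bdry k (Or.inr rfl), sub_self])) (Real.exp (k / 2))
  obtain ⟨C2, c2, hC2⟩ := Van.bd_fam (ι := Bool × {i : Ix // isQ i})
    (G := fun j q => cut q * (q.1 * HH k F j.1 (p j.1) q j.2.1)) (fun j => van_cut
      (contDiff_fst.mul ((h j.1).HH_s k j.2.1)) (fun s y => zero_mul _)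
      (fun e y => by rw [(h j.1).HH_bdry k rfl _ j.2.2, mul_zero])) (Real.exp (k / 2))
  refine ⟨min ε (min 1 (rp M a - rm M a)), lt_min hε (lt_min one_pos (sub_pos.2 hR)),
    fun m => C1 m + C2 m, fun d hd => ?_⟩
  have hd0 := hd.1
  have hd1 : d ∈ Ioo 0 ε := ⟨hd0, hd.2.trans_le (min_le_left _ _)⟩
  have hd2 : d < 1 := hd.2.trans_le ((min_le_right _ _).trans (min_le_left _ _))
  have hd3 : d < rp M a - rm M a := hd.2.trans_le ((min_le_right _ _).trans (min_le_right _ _))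
  have he : √d ∈ Icc (0 : ℝ) 1 := ⟨Real.sqrt_nonneg _, Real.sqrt_le_one.2 hd2.le⟩
  have hs : ∀ t, -1 ≤ t → Real.exp (-k * t / 2) ∈ Icc 0 (Real.exp (k / 2)) := fun t ht =>
    ⟨(Real.exp_pos _).le, Real.exp_le_exp.2 (by nlinarith)⟩
  have hv : ∀ σ, Vac (bg k d F σ) (dom k) := fun σ => hB.vac d hd1 σ
  let K : Bool → R4 → Ix → ℝ := fun σ x i =>
    cut (qm k (√d) x) * (G2 k F σ (p σ) (qm k (√d) x) i - U0 k i) + U0 k i
  have hK : ∀ σ (x : R4), P354I.r2 x.2 ≤ 16 → K σ x = L2 (UK k d F σ (p σ)) x := fun σ x hx => by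
    funext i
    rw [(h σ).L2_UK k hd0]
    simp only [K]
    rw [cut_one (q := qm k (√d) x) hx]
    ring
  have hpd : P354J.PDy (P354I.kerr M a (rm M a + d)) :=
    P354IK.kpd M a _ ha hM (lt_add_of_pos_right _ hd0) (by change rm M a + d < rp M a; linarith)
  have hcv : ∀ σ y, L2 (UK k d F σ (p σ)) (0, y) = P354J.Ud (P354I.kerr M a (rm M a + d)) σ y ∧
      P354J.CC (P354J.pb σ (P354I.kerr M a (rm M a + d)).h)
        (P354J.pb σ (P354I.kerr M a (rm M a + d)).K) y := fun σ y => by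
    refine P354J.cv _ _ (hS _ σ hpd).1 (sl (L2 (UK k d F σ (p σ))) 0) univ isOpen_univ
      (fun z _ => ?_) y (mem_univ y)
    have q1 : qm k (√d) (0, z) = (√d, 1, z.2) := by simp [qm]
    have s1 := (hp σ).sym (√d) z.2
    refine ⟨(h σ).UK_O k hd0 _, ?_, (h σ).UK_det k hd0 _, ?_, fun i j => ?_, ?_⟩
    · change 0 < UK k d F σ (p σ) (0, z) P11
      have := mu_qm_pos k hd0 (0, z)
      have := (h σ).oh_pos (qm k (√d) (0, z))
      simp only [UK, V0, Vh, nn, pow_one]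
      refine mul_pos ‹_› (mul_pos ‹_› ?_)
      rw [q1]
      exact s1.2
    · change UK k d F σ (p σ) (0, z) P12 = UK k d F σ (p σ) (0, z) P21
      simp only [UK, V0, Vh, nn, q1, s1.1]
    · obtain ⟨a1, a2⟩ := (h σ).ind k hd0 (hv σ) (zero_mem_dom k z) (P354H.e i) (P354H.e j)
      obtain ⟨b1, b2⟩ := P354JK.ker M a (rm M a + d) (add_pos hm hd0) σ z i j
      rw [b1, b2, ← hB.first d hd1, ← hB.second d hd1]
      exact ⟨a1, a2⟩
    · exact (P354J.dslThm _ 0 z fun i => dA ((h σ).L2_s k hd0 (hv σ) i) _).1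
        (Full.constr ((h σ).full k hd0 (hv σ) (zero_mem_dom k z)))
  refine ⟨K, by change rm M a + d < rp M a; linarith, fun σ => ⟨fun i => ?_, fun _ _ _ _ => rfl,
    fun m t ht i α hα z => ?_, fun m t ht i hi α hα z => ?_, fun x hx hr => ?_⟩,
    fun σ z hz => (hK σ (0, z) hz.le).trans (hcv σ z).1, fun s => ?_⟩
  · exact (((cut_smooth.mul (((h σ).G2_s k i).sub contDiff_const)).add contDiff_const).comp
      (qm_smooth k _)).contDiffOn
  · have h1 := hC1 m (σ, i) 1 _ he _ (hs t ht) α hα z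
    have e : (fun z : X3 => K σ (t, z) i - U0 k i) = fun z : X3 => 1 * (cut (√d,
        Real.exp (-k * t / 2), z.2) * (G2 k F σ (p σ) (√d, Real.exp (-k * t / 2), z.2) i - U0 k i)) := by
      funext z
      simp only [K, qm]
      ring
    rw [e]
    refine h1.trans ?_
    have := mul_nonneg (c2 m) (mul_nonneg he.1 (hs t ht).1)
    rw [abs_one]
    linarith
  · have h1 := hC2 m (σ, ⟨i, hi⟩) (Real.exp (-k * t / 2)) _ he _ (hs t (by linarith)) α hα z
    have e : (fun z : X3 => K σ (t, z) i) = fun z : X3 => Real.exp (-k * t / 2) * (cut (√d,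
        Real.exp (-k * t / 2), z.2) * (√d * HH k F σ (p σ) (√d, Real.exp (-k * t / 2), z.2) i)) := by
      funext z
      have u0 : U0 k i = 0 := by cases i <;> first | rfl | exact absurd hi (by decide)
      simp only [K, qm, u0, (h σ).G2_Q k _ i hi, mu]
      ring
    rw [e]
    refine h1.trans ?_
    have := mul_nonneg (c1 m) (mul_nonneg he.1 (Real.exp_pos (-k * t)).le)
    rw [abs_of_pos (Real.exp_pos _), ← exp_half k t] at *
    nlinarith
  · have ho : IsOpen {y : R4 | P354I.r2 y.2 < 16} :=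
      isOpen_lt (by unfold P354I.r2; fun_prop) continuous_const
    have hev : K σ =ᶠ[𝓝 x] L2 (UK k d F σ (p σ)) := by
      filter_upwards [ho.mem_nhds hr] with y hy using hK σ y (le_of_lt hy)
    have e2 : dfr (K σ) x = dfr (L2 (UK k d F σ (p σ))) x := by
      funext j i
      unfold dfr
      rw [hK σ x hr.le, EventuallyEq.fderiv_eq (hev.mono fun y hy => congrFun hy i)]
    rw [e2, hK σ x hr.le]
    exact (h σ).full k hd0 (hv σ) hx
  · have hc : ∀ y : P354I.X, y ≠ 0 → _ ∧ _ := fun y hy => by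
      obtain ⟨σ, hσ⟩ := exists_chart hy
      have h1 := ((hS _ σ hpd).2 (P354J.Psi σ y)).1 (hcv σ _).2
      rw [((P354JK.inv σ).2 y hy hσ).1] at h1
      exact h1
    exact ⟨hpd.1, hpd.2, fun m => by rw [pm_self]; exact ENNReal.zero_lt_top,
      fun y hy => (hc y hy).1, fun y hy => (hc y hy).2⟩

end Vale.Agent.P354R
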