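import Vale.Agent.P354R.Coef
import Vale.Agent.P354RC.Pull

/-!
The background metric: it is a metric, and off the axis it is isometric to Kerr.
-/

open scoped ContDiff
open Set Filter Topology

set_option linter.unusedSectionVars false

namespace Vale.Agent.P354R

open Vale.Agent.P354n (R4)

/-! ### The sphere -/

lemma sd_pos (y : ℝ × ℝ) : 0 < 1 + y.1 ^ 2 + y.2 ^ 2 := by positivity

lemma sgn_sq (σ : Bool) : ((bif σ then 1 else -1 : ℝ)) ^ 2 = 1 := by cases σ <;> simp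

lemma one_sub_ht (σ : Bool) (y : ℝ × ℝ) :
    1 - ht σ y ^ 2 = 4 * (y.1 ^ 2 + y.2 ^ 2) / (1 + y.1 ^ 2 + y.2 ^ 2) ^ 2 := by
  have := (sd_pos y).ne'
  unfold ht
  rw [mul_pow, sgn_sq]
  field_simp
  ring

lemma abs_ht (σ : Bool) (y : ℝ × ℝ) : |ht σ y| ≤ 1 := by
  have h := one_sub_ht σ y
  have : 0 ≤ 4 * (y.1 ^ 2 + y.2 ^ 2) / (1 + y.1 ^ 2 + y.2 ^ 2) ^ 2 := by positivity
  exact abs_le_one_iff_mul_self_le_one.2 (by nlinarith)

lemma ht_mem (σ : Bool) (y : ℝ × ℝ) : ht σ y ∈ Icc (-1 : ℝ) 1 := abs_le.1 (abs_ht σ y)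

lemma rnd_id (σ : Bool) (y A B : ℝ × ℝ) :
    (1 - ht σ y ^ 2) * rnd y A B = dht σ y A * dht σ y B + alp y A * alp y B := by
  have := (sd_pos y).ne'
  have h := sgn_sq σ
  rw [one_sub_ht]
  unfold rnd dht alp
  generalize (bif σ then 1 else -1 : ℝ) = e at h
  field_simp
  linear_combination -((y.1 * A.1 + y.2 * A.2) * (y.1 * B.1 + y.2 * B.2)) * h

lemma ht_smooth (σ : Bool) : ContDiff ℝ ∞ (ht σ) := by
  unfold ht
  exact contDiff_const.mul (ContDiff.div (by fun_prop) (by fun_prop) fun y => (sd_pos y).ne')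

lemma dht_sub (σ : Bool) (y A : ℝ × ℝ) (c : ℝ) : dht σ y (A - c • rot y) = dht σ y A := by
  simp only [dht, rot, Prod.fst_sub, Prod.snd_sub, Prod.smul_fst, Prod.smul_snd, smul_eq_mul]
  ring

lemma alp_sub (σ : Bool) (y A : ℝ × ℝ) (c : ℝ) :
    alp y (A - c • rot y) = alp y A - c * (1 - ht σ y ^ 2) := by
  rw [one_sub_ht]
  simp only [alp, rot, Prod.fst_sub, Prod.snd_sub, Prod.smul_fst, Prod.smul_snd, smul_eq_mul]
  ring

lemma fderiv_ht (σ : Bool) (y A : ℝ × ℝ) : fderiv ℝ (ht σ) y A = dht σ y A := by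
  have h0 := (sd_pos y).ne'
  have h1 : HasLineDerivAt ℝ (ht σ) (fderiv ℝ (ht σ) y A) y A :=
    ((ht_smooth σ).differentiable (by simp) y).hasFDerivAt.hasLineDerivAt A
  have a1 : HasDerivAt (fun t : ℝ => y.1 + t * A.1) (1 * A.1) 0 :=
    ((hasDerivAt_id (0 : ℝ)).mul_const _).const_add _
  have a2 : HasDerivAt (fun t : ℝ => y.2 + t * A.2) (1 * A.2) 0 :=
    ((hasDerivAt_id (0 : ℝ)).mul_const _).const_add _
  have h2 := ((((a1.pow 2).const_sub 1).sub (a2.pow 2)).div (((a1.pow 2).const_add 1).add (a2.pow 2))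
    (by simpa using h0)).const_mul (bif σ then 1 else -1 : ℝ)
  refine h1.unique (h2.congr_deriv ?_)
  simp only [dht, Pi.pow_apply, Pi.add_apply, Pi.sub_apply, zero_mul, add_zero]
  push_cast
  field_simp
  ring

/-! ### bg is a metric -/

section Met

variable {k d : ℝ} {F : ℕ → ℝ × ℝ × ℝ → ℝ} (σ : Bool)

lemma arg_smooth : ContDiff ℝ ∞ (arg k d σ) := by
  have := ht_smooth σ
  unfold arg
  fun_prop

lemma rho_smooth : ContDiff ℝ ∞ (rho k d) := by
  unfold rho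
  fun_prop

lemma isd_smooth : ContDiff ℝ ∞ (fun p : R4 => ((1 + p.2.2.1 ^ 2 + p.2.2.2 ^ 2) ^ 2)⁻¹) :=
  ContDiff.inv (by fun_prop) fun p => pow_ne_zero 2 (sd_pos p.2.2).ne'

lemma bg_smooth (hF : ∀ i, ContDiff ℝ ∞ (F i)) (a b : R4) :
    ContDiff ℝ ∞ (fun p => bg k d F σ p a b) := by
  have h0 : ContDiff ℝ ∞ (arg k d σ) := arg_smooth σ
  have h1 := hF 0
  have h2 := hF 1
  have h3 := hF 2
  have h4 := hF 3
  have h5 := hF 4
  have h6 : ContDiff ℝ ∞ (rho k d) := rho_smooth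
  have h7 := isd_smooth
  simp only [bg, gam, hor, rnd, dht, alp, rot, div_eq_mul_inv, Prod.fst_sub, Prod.snd_sub,
    Prod.smul_fst, Prod.smul_snd, smul_eq_mul]
  fun_prop

lemma bg_symm (p a b : R4) : bg k d F σ p a b = bg k d F σ p b a := by
  simp only [bg, gam, rnd]
  ring

lemma bg_lin (p a : R4) : IsLinearMap ℝ (bg k d F σ p a) := by
  constructor
  · intro b c
    simp only [bg, gam, hor, rnd, dht, alp, rot, Prod.fst_sub, Prod.snd_sub, Prod.fst_add,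
      Prod.snd_add, Prod.smul_fst, Prod.smul_snd, smul_eq_mul]
    ring
  · intro r b
    simp only [bg, gam, hor, rnd, dht, alp, rot, Prod.fst_sub, Prod.snd_sub,
      Prod.smul_fst, Prod.smul_snd, smul_eq_mul]
    ring

/-- the metric of the spheres is positive -/
lemma gam_pos {p : R4} (h1 : 0 < F 1 (arg k d σ p))
    (h2 : 0 < F 1 (arg k d σ p) * (F 1 (arg k d σ p) + (1 - ht σ p.2.2 ^ 2) * F 2 (arg k d σ p)) -
      (1 - ht σ p.2.2 ^ 2) ^ 2 * F 3 (arg k d σ p) ^ 2) {A : ℝ × ℝ} (hA : A ≠ 0) :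
    0 < gam k d F σ p A A := by
  have hsd := sd_pos p.2.2
  have hA2 : 0 < A.1 ^ 2 + A.2 ^ 2 := by
    by_contra h
    apply hA
    have a1 : A.1 = 0 := by nlinarith [sq_nonneg A.1, sq_nonneg A.2]
    have a2 : A.2 = 0 := by nlinarith [sq_nonneg A.1, sq_nonneg A.2]
    exact Prod.ext a1 a2
  have hr : 0 < rnd p.2.2 A A := by
    unfold rnd
    exact div_pos (by nlinarith) (by positivity)
  have hid := rnd_id σ p.2.2 A A
  have hw : 0 ≤ 1 - ht σ p.2.2 ^ 2 := by rw [one_sub_ht]; positivity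
  unfold gam
  generalize F 1 (arg k d σ p) = f1 at *
  generalize F 2 (arg k d σ p) = f2 at *
  generalize F 3 (arg k d σ p) = f3 at *
  generalize rnd p.2.2 A A = R at *
  generalize dht σ p.2.2 A = a at *
  generalize alp p.2.2 A = b at *
  generalize 1 - ht σ p.2.2 ^ 2 = w at *
  rcases hw.eq_or_lt with h0 | h0
  · have a0 : a = 0 := by rw [← h0] at hid; nlinarith [mul_self_nonneg a, mul_self_nonneg b]
    rw [a0]
    simpa using mul_pos h1 hr
  · have e : f1 * w * (f1 * R + f2 * (a * a) + f3 * (b * a + a * b)) =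
        (f1 * b + w * f3 * a) ^ 2 + (f1 * (f1 + w * f2) - w ^ 2 * f3 ^ 2) * a ^ 2 := by
      linear_combination f1 ^ 2 * hid
    have hpos : 0 < (f1 * b + w * f3 * a) ^ 2 + (f1 * (f1 + w * f2) - w ^ 2 * f3 ^ 2) * a ^ 2 := by
      by_cases ha : a = 0
      · have hb : b ≠ 0 := by
          rintro rfl
          rw [ha] at hid
          have := mul_pos h0 hr
          linarith
        rw [ha]
        have : 0 < (f1 * b) ^ 2 := by positivity
        simpa using this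
      · have : 0 < (f1 * (f1 + w * f2) - w ^ 2 * f3 ^ 2) * a ^ 2 := by positivity
        positivity
    rw [← e] at hpos
    exact (mul_pos_iff_of_pos_left (mul_pos h1 h0)).1 hpos

lemma rho_pos (hd : 0 < d) (p : R4) : 0 < rho k d p := mul_pos hd (Real.exp_pos _)

theorem bg_met (hF : ∀ i, ContDiff ℝ ∞ (F i))
    (hp : ∀ d s, ∀ z ∈ Icc (-1 : ℝ) 1, 0 < F 0 (d, s, z) ∧ 0 < F 1 (d, s, z) ∧
      0 < F 1 (d, s, z) * (F 1 (d, s, z) + (1 - z ^ 2) * F 2 (d, s, z)) -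
        (1 - z ^ 2) ^ 2 * F 3 (d, s, z) ^ 2) (hd : 0 < d) (D : Set R4) :
    Met (bg k d F σ) D := by
  refine ⟨fun y _ a => bg_lin σ y a, fun y _ a b => bg_symm σ y a b, fun p _ a h => ?_,
    fun a b => (bg_smooth σ hF a b).contDiffOn⟩
  obtain ⟨p0, p1, p2⟩ := hp d (Real.exp (-k * p.1)) _ (ht_mem σ p.2.2)
  have hO : 0 < rho k d p * F 0 (arg k d σ p) := mul_pos (rho_pos hd p) p0
  have e1 : hor k d F σ p (0, 0, hor k d F σ p a) = hor k d F σ p a := by simp [hor]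
  have h1 := h (0, 0, hor k d F σ p a)
  unfold bg at h1
  rw [e1] at h1
  have h2 : hor k d F σ p a = 0 := by
    by_contra hne
    have := gam_pos σ p1 p2 hne
    simp only [mul_zero, neg_zero, add_zero, zero_add] at h1
    linarith
  have g0 : ∀ B, gam k d F σ p 0 B = 0 := fun B => by simp [gam, rnd, dht, alp]
  have h3 := h (1, 0, 0)
  have h4 := h (0, 1, 0)
  unfold bg at h3 h4
  rw [h2, g0] at h3 h4
  have a1 : a.1 = 0 := by
    have : rho k d p * F 0 (arg k d σ p) * a.1 = 0 := by linear_combination -h3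
    exact (mul_eq_zero.1 this).resolve_left hO.ne'
  have a2 : a.2.1 = 0 := by
    have : rho k d p * F 0 (arg k d σ p) * a.2.1 = 0 := by linear_combination h4
    exact (mul_eq_zero.1 this).resolve_left hO.ne'
  have a3 : a.2.2 = 0 := by simpa [hor, a1, a2] using h2
  exact Prod.ext a1 (Prod.ext a2 a3)

end Met

/-! ### Polar coordinates -/

/-- (tau, x, m, psi) goes to (tau, x, m cos psi, m sin psi) -/
noncomputable def pol (w : R4) : R4 :=
  (w.1, w.2.1, w.2.2.1 * Real.cos w.2.2.2, w.2.2.1 * Real.sin w.2.2.2)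

lemma pol_smooth : ContDiff ℝ ∞ pol := by unfold pol; fun_prop

lemma line_eq {F : Type} [NormedAddCommGroup F] [NormedSpace ℝ F] {f : R4 → F} {w A : R4} {v : F}
    (hf : DifferentiableAt ℝ f w) (h : HasDerivAt (fun t : ℝ => f (w + t • A)) v 0) :
    fderiv ℝ f w A = v :=
  (hf.hasFDerivAt.hasLineDerivAt A).unique h

lemma lin1 (x a : ℝ) : HasDerivAt (fun t : ℝ => x + t * a) a 0 := by
  simpa using ((hasDerivAt_id (0 : ℝ)).mul_const a).const_add x

lemma fderiv_pol (w A : R4) : fderiv ℝ pol w A = (A.1, A.2.1,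
    A.2.2.1 * Real.cos w.2.2.2 - w.2.2.1 * Real.sin w.2.2.2 * A.2.2.2,
    A.2.2.1 * Real.sin w.2.2.2 + w.2.2.1 * Real.cos w.2.2.2 * A.2.2.2) := by
  refine line_eq (pol_smooth.differentiable (by simp) w) ?_
  have h := (lin1 w.1 A.1).prodMk ((lin1 w.2.1 A.2.1).prodMk
    (((lin1 w.2.2.1 A.2.2.1).mul (lin1 w.2.2.2 A.2.2.2).cos).prodMk
      ((lin1 w.2.2.1 A.2.2.1).mul (lin1 w.2.2.2 A.2.2.2).sin)))
  refine h.congr_deriv ?_
  simp only [zero_mul, add_zero, Prod.mk.injEq, true_and]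
  constructor <;> ring

lemma pol_sq (w : R4) : (pol w).2.2.1 ^ 2 + (pol w).2.2.2 ^ 2 = w.2.2.1 ^ 2 := by
  simp only [pol]
  linear_combination w.2.2.1 ^ 2 * Real.cos_sq_add_sin_sq w.2.2.2

lemma alp_pol (σ : Bool) (w A : R4) :
    alp (pol w).2.2 (fderiv ℝ pol w A).2.2 = (1 - ht σ (pol w).2.2 ^ 2) * A.2.2.2 := by
  rw [one_sub_ht, fderiv_pol]
  simp only [alp, pol]
  ring

lemma pol_inj {w : R4} (hw : 0 < w.2.2.1) : Function.Injective (fderiv ℝ pol w) := by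
  refine (injective_iff_map_eq_zero _).2 fun A hA => ?_
  rw [fderiv_pol] at hA
  simp only [Prod.mk_eq_zero] at hA
  obtain ⟨h1, h2, h3, h4⟩ := hA
  have hc := Real.cos_sq_add_sin_sq w.2.2.2
  have a3 : A.2.2.1 = 0 := by
    linear_combination Real.cos w.2.2.2 * h3 + Real.sin w.2.2.2 * h4 - A.2.2.1 * hc
  have a4 : w.2.2.1 * A.2.2.2 = 0 := by
    linear_combination Real.cos w.2.2.2 * h4 - Real.sin w.2.2.2 * h3 - w.2.2.1 * A.2.2.2 * hc
  exact Prod.ext h1 (Prod.ext h2 (Prod.ext a3 ((mul_eq_zero.1 a4).resolve_left hw.ne')))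

lemma pol_surj {p : R4} (hp : p.2.2 ≠ 0) : ∃ w : R4, pol w = p ∧ 0 < w.2.2.1 := by
  let z : ℂ := ⟨p.2.2.1, p.2.2.2⟩
  have hz : z ≠ 0 := fun h => hp (Prod.ext (congrArg Complex.re h) (congrArg Complex.im h))
  refine ⟨(p.1, p.2.1, ‖z‖, Complex.arg z), ?_, norm_pos_iff.2 hz⟩
  simp only [pol, Complex.norm_mul_cos_arg, Complex.norm_mul_sin_arg]
  rfl

lemma pol_ne {w : R4} (hw : 0 < w.2.2.1) : (pol w).2.2 ≠ 0 := fun h => by
  have := pol_sq w
  rw [h] at this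
  simp only [Prod.fst_zero, Prod.snd_zero] at this
  nlinarith

lemma one_sub_pos (σ : Bool) {y : ℝ × ℝ} (hy : y ≠ 0) : 0 < 1 - ht σ y ^ 2 := by
  rw [one_sub_ht]
  have : 0 < y.1 ^ 2 + y.2 ^ 2 := by
    by_contra h
    apply hy
    have a1 : y.1 = 0 := by nlinarith [sq_nonneg y.1, sq_nonneg y.2]
    have a2 : y.2 = 0 := by nlinarith [sq_nonneg y.1, sq_nonneg y.2]
    exact Prod.ext a1 a2
  have := sd_pos y
  positivity

lemma mem_closure_axis {D : Set R4} (hD : ∀ p ∈ D, ∀ q : R4, q.1 = p.1 → q ∈ D) :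
    D ⊆ closure {p | p ∈ D ∧ p.2.2 ≠ 0} := by
  intro p hp
  by_cases h : p.2.2 = 0
  · have hc : Continuous fun t : ℝ => ((p.1, p.2.1, t, 0) : R4) := by fun_prop
    have h1 : Tendsto (fun t : ℝ => ((p.1, p.2.1, t, 0) : R4)) (𝓝[≠] 0) (𝓝 p) := by
      have := (hc.tendsto 0).mono_left (nhdsWithin_le_nhds (s := {0}ᶜ))
      rwa [show ((p.1, p.2.1, 0, 0) : R4) = p from Prod.ext rfl (Prod.ext rfl h.symm)] at this
    refine mem_closure_of_tendsto h1 ?_
    filter_upwards [self_mem_nhdsWithin] with t ht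
    exact ⟨hD p hp _ rfl, fun e => ht (congrArg Prod.fst e)⟩
  · exact subset_closure ⟨hp, h⟩

end Vale.Agent.P354R
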