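import Vale.Agent.P354R.Frame
import Vale.Agent.P354H.Defs

/-!
Bounds for smooth functions of (e, s, y) which vanish for e = 0 and for s = 0.
-/

open scoped ContDiff
open Set Filter Topology

namespace Vale.Agent.P354R

open Vale.Agent.P354n (R4)
open Vale.Agent.P354H (X3 pd pdl Sb)

/-- smooth, zero for e = 0, for s = 0 and for large y -/
structure Van (G : R4 → ℝ) : Prop where
  sm : ContDiff ℝ ∞ G
  e0 : ∀ s y, G (0, s, y) = 0
  s0 : ∀ e y, G (e, 0, y) = 0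
  far : ∀ q : R4, 25 < q.2.2.1 ^ 2 + q.2.2.2 ^ 2 → G q = 0

lemma fderiv_zero_line {G : R4 → ℝ} (hG : ContDiff ℝ ∞ G) {q v : R4} {c : ℝ}
    (h : ∀ t : ℝ, G (q + t • v) = c) : fderiv ℝ G q v = 0 := by
  refine line_eq (dA hG q) ?_
  simp only [h]
  exact hasDerivAt_const _ _

lemma Van.dir {G : R4 → ℝ} (h : Van G) (w : ℝ × ℝ) : Van fun q => fderiv ℝ G q (0, 0, w) := by
  refine ⟨dir_smooth h.sm _, fun s y => fderiv_zero_line h.sm (c := 0) fun t => ?_,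
    fun e y => fderiv_zero_line h.sm (c := 0) fun t => ?_, fun q hq => ?_⟩
  · simpa using h.e0 _ _
  · simpa using h.s0 _ _
  · have ho : IsOpen {q : R4 | 25 < q.2.2.1 ^ 2 + q.2.2.2 ^ 2} :=
      isOpen_lt continuous_const (by fun_prop)
    have : G =ᶠ[𝓝 q] fun _ => 0 := by
      filter_upwards [ho.mem_nhds hq] with x hx using h.far x hx
    rw [this.fderiv_eq]
    simp

lemma Van.bd0 {G : R4 → ℝ} (h : Van G) (S : ℝ) : ∃ C, 0 ≤ C ∧ ∀ e ∈ Icc (0 : ℝ) 1, ∀ s ∈ Icc 0 S,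
    ∀ y, |G (e, s, y)| ≤ C * (e * s) := by
  let G1 : R4 → ℝ := fun q => fderiv ℝ G q (1, 0, 0, 0)
  have G1s : ContDiff ℝ ∞ G1 := dir_smooth h.sm _
  have G2s : ContDiff ℝ ∞ (dS G1) := dir_smooth G1s _
  have hK : IsCompact (Icc (0 : ℝ) 1 ×ˢ Icc (0 : ℝ) S ×ˢ Icc (-5 : ℝ) 5 ×ˢ Icc (-5 : ℝ) 5) :=
    isCompact_Icc.prod (isCompact_Icc.prod (isCompact_Icc.prod isCompact_Icc))
  obtain ⟨C, hC⟩ := hK.exists_bound_of_continuousOn G2s.continuous.continuousOn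
  refine ⟨max C 0, le_max_right _ _, fun e he s hs y => ?_⟩
  by_cases hy : 25 < y.1 ^ 2 + y.2 ^ 2
  · rw [h.far (e, s, y) hy, abs_zero]
    have := he.1
    have := hs.1
    positivity
  have y1 : y.1 ∈ Icc (-5 : ℝ) 5 := by constructor <;> nlinarith [sq_nonneg y.2]
  have y2 : y.2 ∈ Icc (-5 : ℝ) 5 := by constructor <;> nlinarith [sq_nonneg y.1]
  have h1 : ∀ e ∈ Icc (0 : ℝ) 1, ‖G1 (e, s, y)‖ ≤ max C 0 * s := fun e he => by
    have h2 := norm_image_sub_le_of_norm_deriv_le_segment' (f := fun t => G1 (e, t, y))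
      (f' := fun t => dS G1 (e, t, y)) (a := 0) (b := S) (C := max C 0)
      (fun t _ => (hasDerivAt_dS G1s e t y).hasDerivWithinAt)
      (fun t ht => (hC (e, t, y) ⟨he, ⟨ht.1, ht.2.le⟩, y1, y2⟩).trans (le_max_left _ _)) s hs
    have h3 : G1 (e, 0, y) = 0 := fderiv_zero_line h.sm (c := 0) fun t => by simpa using h.s0 _ _
    simpa [h3] using h2
  have h4 : ∀ t : ℝ, HasDerivAt (fun t => G (t, s, y)) (G1 (t, s, y)) t := fun t => by
    have h5 : HasDerivAt (fun t : ℝ => ((t, s, y) : R4)) (1, 0, 0, 0) t :=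
      (hasDerivAt_id _).prodMk (hasDerivAt_const _ _)
    exact HasFDerivAt.comp_hasDerivAt t (f := fun t : ℝ => ((t, s, y) : R4)) (dA h.sm _).hasFDerivAt h5
  have h6 := norm_image_sub_le_of_norm_deriv_le_segment' (f := fun t => G (t, s, y))
    (f' := fun t => G1 (t, s, y)) (a := 0) (b := 1) (C := max C 0 * s)
    (fun t _ => (h4 t).hasDerivWithinAt) (fun t ht => h1 t ⟨ht.1, ht.2.le⟩) e he
  simp only [h.e0, sub_zero, Real.norm_eq_abs] at h6
  linarith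

lemma pd_sl {G : R4 → ℝ} (hG : ContDiff ℝ ∞ G) (c e s : ℝ) (j : Fin 3) :
    pd j (fun z : X3 => c * G (e, s, z.2)) =
      fun z : X3 => c * fderiv ℝ G (e, s, z.2) (0, 0, (P354H.e j).2) := by
  funext z
  have h1 : HasFDerivAt (fun z : X3 => ((e, s, z.2) : R4))
      ((0 : X3 →L[ℝ] ℝ).prod ((0 : X3 →L[ℝ] ℝ).prod (ContinuousLinearMap.snd ℝ ℝ (ℝ × ℝ)))) z :=
    (hasFDerivAt_const _ _).prodMk ((hasFDerivAt_const _ _).prodMk hasFDerivAt_snd)
  have h2 := ((dA hG (e, s, z.2)).hasFDerivAt.comp z h1).const_mul c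
  exact DFunLike.congr_fun h2.fderiv (P354H.e j)

lemma Van.bd (S : ℝ) (m : ℕ) : ∀ {G : R4 → ℝ}, Van G → ∃ C, 0 ≤ C ∧ ∀ c, ∀ e ∈ Icc (0 : ℝ) 1,
    ∀ s ∈ Icc 0 S, Sb m (fun z : X3 => c * G (e, s, z.2)) (|c| * (C * (e * s))) := by
  induction m with
  | zero =>
    intro G h
    obtain ⟨C, h0, hC⟩ := h.bd0 S
    refine ⟨C, h0, fun c e he s hs α hα z => ?_⟩
    rw [List.length_eq_zero_iff.1 (Nat.le_zero.1 hα)]
    simp only [pdl, Real.norm_eq_abs, abs_mul]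
    exact mul_le_mul_of_nonneg_left (hC e he s hs z.2) (abs_nonneg c)
  | succ m ih =>
    intro G h
    obtain ⟨C, h0, hC⟩ := h.bd0 S
    choose D hD0 hD using fun j : Fin 3 => ih (h.dir (P354H.e j).2)
    have hs0 : 0 ≤ ∑ j, D j := Finset.sum_nonneg fun j _ => hD0 j
    refine ⟨C + ∑ j, D j, by positivity, fun c e he s hs α hα z => ?_⟩
    have hes : 0 ≤ e * s := mul_nonneg he.1 hs.1
    match α with
    | [] =>
      simp only [pdl, Real.norm_eq_abs, abs_mul]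
      refine mul_le_mul_of_nonneg_left ((hC e he s hs z.2).trans ?_) (abs_nonneg c)
      gcongr
      linarith
    | j :: β =>
      simp only [pdl]
      rw [pd_sl h.sm]
      refine (hD j c e he s hs β (by simpa using hα) z).trans ?_
      have : D j ≤ ∑ j, D j := Finset.single_le_sum (fun j _ => hD0 j) (Finset.mem_univ j)
      gcongr
      linarith

lemma Van.bd_fam {ι : Type} [Fintype ι] {G : ι → R4 → ℝ} (h : ∀ i, Van (G i)) (S : ℝ) :
    ∃ C : ℕ → ℝ, (∀ m, 0 ≤ C m) ∧ ∀ m i c, ∀ e ∈ Icc (0 : ℝ) 1, ∀ s ∈ Icc 0 S,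
      Sb m (fun z : X3 => c * G i (e, s, z.2)) (|c| * (C m * (e * s))) := by
  choose D hD0 hD using fun m i => Van.bd S m (h i)
  refine ⟨fun m => ∑ i, D m i, fun m => Finset.sum_nonneg fun i _ => hD0 m i,
    fun m i c e he s hs α hα z => (hD m i c e he s hs α hα z).trans ?_⟩
  have : D m i ≤ ∑ i, D m i := Finset.single_le_sum (fun j _ => hD0 m j) (Finset.mem_univ i)
  have hes : 0 ≤ e * s := mul_nonneg he.1 hs.1
  gcongr

/-- the cut-off: 1 for r2 ≤ 16, 0 for r2 ≥ 25 -/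
noncomputable def cut (q : R4) : ℝ :=
  Real.smoothTransition ((25 - (q.2.2.1 ^ 2 + q.2.2.2 ^ 2)) / 9)

lemma cut_smooth : ContDiff ℝ ∞ cut := Real.smoothTransition.contDiff.comp (by fun_prop)

lemma cut_one {q : R4} (h : q.2.2.1 ^ 2 + q.2.2.2 ^ 2 ≤ 16) : cut q = 1 :=
  Real.smoothTransition.one_of_one_le (by linarith)

lemma van_cut {G : R4 → ℝ} (hG : ContDiff ℝ ∞ G) (h1 : ∀ s y, G (0, s, y) = 0)
    (h2 : ∀ e y, G (e, 0, y) = 0) : Van fun q => cut q * G q :=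
  ⟨cut_smooth.mul hG, fun s y => by rw [h1, mul_zero], fun e y => by rw [h2, mul_zero],
    fun q hq => by rw [cut, Real.smoothTransition.zero_of_nonpos (by linarith), zero_mul]⟩

end Vale.Agent.P354R
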