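import Vale.Agent.P354R.Eik

/-!
The coefficients of the double null form of the Kerr metric.
-/

open scoped ContDiff
open Set Filter Topology

set_option linter.unusedSectionVars false

namespace Vale.Agent.P354R

lemma exists_clamp' {r r' : ℝ} (hr : 0 < r) (hr' : r < r') : ∃ cl : ℝ → ℝ, ContDiff ℝ ∞ cl ∧
    (∀ x, |x| ≤ r → cl x = x) ∧ ∀ x, |cl x| < r' := by
  let χ : ContDiffBump (0 : ℝ) := ⟨r, r', hr, hr'⟩
  refine ⟨fun x => χ x * x, χ.contDiff.mul contDiff_id, fun x hx => ?_, fun x => ?_⟩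
  · have : χ x = 1 := χ.one_of_mem_closedBall (by simpa using hx)
    simp only [this, one_mul]
  · by_cases hx : |x| < r'
    · have h0 : 0 ≤ χ x := χ.nonneg
      have h1 : χ x ≤ 1 := χ.le_one
      rw [abs_mul, abs_of_nonneg h0]
      nlinarith [abs_nonneg x]
    · have : χ x = 0 := χ.zero_of_le_dist (by simpa using hx)
      simp only [this, zero_mul, abs_zero]
      linarith

namespace Par

variable (P : Par) {ε : ℝ} (S : R3 → W4)

def sg (c : R3) : ℝ := P.rad S c ^ 2 + P.a ^ 2 * zz S c ^ 2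
def aA (c : R3) : ℝ := P.Q2 (P.rad S c) (zz S c)
def aQ (c : R3) : ℝ := P.Q2 (P.rad S c) c.2.2
noncomputable def eE (c : R3) : ℝ := P.a ^ 2 / (pp S c ^ 2 + P.a ^ 2)
noncomputable def eT (c : R3) : ℝ := P.eE S c * pp S c * dz (pp S) c / (pp S c ^ 2 + P.a ^ 2)
noncomputable def eB (c : R3) : ℝ :=
  -P.eE S c ^ 2 + 2 * c.2.2 * P.eE S c * P.eT S c + (1 - c.2.2 ^ 2) * P.eT S c ^ 2 +
    P.eE S c * dz (zz S) c ^ 2
noncomputable def fL (c : R3) : ℝ := P.sg S c * P.aA S c * dz (zz S) c ^ 2 / (P.aQ S c * P.eE S c)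
noncomputable def f0 (c : R3) : ℝ := (P.R - P.rad S c) * eta S c * P.sg S c / P.aA S c
noncomputable def f1 (c : R3) : ℝ := P.aA S c * P.eE S c / P.sg S c
noncomputable def f2 (c : R3) : ℝ :=
  P.aA S c * (P.sg S c ^ 2 * P.eB S c + P.eE S c ^ 2 * P.a ^ 2 * (P.Dl (P.rad S c) -
    P.eE S c * (P.rad S c ^ 2 + P.a ^ 2 + P.sg S c))) / (P.aQ S c * P.eE S c * P.sg S c) +
    P.f1 S c * (1 - c.2.2 ^ 2) * dz (hh S) c ^ 2
noncomputable def f3 (c : R3) : ℝ := -(P.f1 S c * dz (hh S) c)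
noncomputable def f4 (c : R3) : ℝ := eta S c * P.WW (P.rad S c) (zz S c)

noncomputable def ff : ℕ → R3 → ℝ
  | 0 => P.f0 S
  | 1 => P.f1 S
  | 2 => P.f2 S
  | 3 => P.f3 S
  | 4 => P.f4 S
  | _ => fun _ => 0

lemma p2_pos (c : R3) : 0 < pp S c ^ 2 + P.a ^ 2 := by have := P.a2_pos; positivity

lemma eE_pos (c : R3) : 0 < P.eE S c := div_pos P.a2_pos (P.p2_pos S c)

variable {P S}

/-- omega - omega_- -/
lemma WW_id {r z : ℝ} (h : 0 < P.Q2 r z) : (r - P.m) * P.WW r z =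
    P.a * (r ^ 2 + P.a ^ 2 - P.Dl r) / P.Q2 r z - P.a / (P.m ^ 2 + P.a ^ 2) := by
  have h0 := P.m0_pos
  have ha := P.ha
  unfold WW
  field_simp
  unfold Q2 Dl
  rw [ha]
  ring

namespace Chr

variable (h : P.Chr ε S)
include h

lemma sg_s : ContDiff ℝ ∞ (P.sg S) := by
  have := h.rad_s
  have := h.zz_s
  unfold sg
  fun_prop

lemma aA_s : ContDiff ℝ ∞ (P.aA S) :=
  contDiffOn_univ.1 (P.Q2_smooth h.rad_s.contDiffOn h.zz_s.contDiffOn)

lemma aQ_s : ContDiff ℝ ∞ (P.aQ S) :=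
  contDiffOn_univ.1 (P.Q2_smooth h.rad_s.contDiffOn (by fun_prop))

lemma eE_s : ContDiff ℝ ∞ (P.eE S) := by
  have := h.pp_s
  exact ContDiff.div contDiff_const (by fun_prop) fun c => (P.p2_pos S c).ne'

lemma eT_s : ContDiff ℝ ∞ (P.eT S) := by
  have := h.pp_s
  have := h.eE_s
  have := dz_smooth h.pp_s
  exact ContDiff.div (by fun_prop) (by fun_prop) fun c => (P.p2_pos S c).ne'

lemma eB_s : ContDiff ℝ ∞ (P.eB S) := by
  have := h.eE_s
  have := h.eT_s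
  have := dz_smooth h.zz_s
  unfold eB
  fun_prop

lemma sg_pos {c : R3} (hc : c ∈ box ε) : 0 < P.sg S c := by
  have := h.r_pos hc
  unfold sg
  positivity

lemma f1_s : ContDiffOn ℝ ∞ (P.f1 S) (box ε) :=
  ContDiffOn.div (h.aA_s.mul h.eE_s).contDiffOn h.sg_s.contDiffOn fun _ hc => (h.sg_pos hc).ne'

lemma ff_s (i : ℕ) : ContDiffOn ℝ ∞ (P.ff S i) (box ε) := by
  have h1 := h.rad_s
  have h2 := h.eta_s
  have h3 := h.sg_s
  have h4 := h.aA_s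
  have h5 := h.aQ_s
  have h6 := h.eE_s
  have h7 := h.eB_s
  have h8 := dz_smooth h.hh_s
  have h9 := h.f1_s
  match i with
  | 0 => exact ContDiffOn.div (by fun_prop) (by fun_prop) fun _ hc => (h.A_pos hc).ne'
  | 1 => exact h9
  | 2 =>
    refine ContDiffOn.add (ContDiffOn.div (by unfold Dl; fun_prop) (by fun_prop) fun c hc => ?_)
      (by fun_prop)
    exact (mul_pos (mul_pos (h.q_pos hc) (P.eE_pos S c)) (h.sg_pos hc)).ne'
  | 3 => exact (h9.mul h8.contDiffOn).neg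
  | 4 => exact h2.contDiffOn.mul (P.WW_smooth h1.contDiffOn h.zz_s.contDiffOn fun _ hc => h.A_pos hc)
  | _ + 5 => exact contDiffOn_const

lemma ff_flat (i : ℕ) (s s' ζ : ℝ) : P.ff S i (0, s, ζ) = P.ff S i (0, s', ζ) := by
  match i with
  | 0 | 1 | 2 | 3 | 4 =>
    simp only [ff, f0, f1, f2, f3, f4, sg, aA, aQ, eB, eT, eE, h.rad_zero, h.eta_zero, h.zz_zero,
      h.pp_zero, h.dz_zz_zero, h.dz_pp_zero, h.dz_hh_zero]
  | _ + 5 => rfl

variable {c : R3} (hc : c ∈ box ε)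
include hc

lemma one_sub : 1 - zz S c ^ 2 = (1 - c.2.2 ^ 2) * P.eE S c := by
  have h1 := h.cons hc
  have h2 := P.p2_pos S c
  unfold eE
  field_simp
  linear_combination h1

lemma zz_dz : zz S c * dz (zz S) c = c.2.2 * P.eE S c + (1 - c.2.2 ^ 2) * P.eT S c := by
  have h1 := h.cons' hc
  have h2 := P.p2_pos S c
  rw [h.one_sub hc] at h1
  have h3 : c.2.2 * P.eE S c * (pp S c ^ 2 + P.a ^ 2) = P.a ^ 2 * c.2.2 := by
    unfold eE
    field_simp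
  unfold eT
  field_simp
  linear_combination h1 - h3

lemma dz_sq : dz (zz S) c ^ 2 = P.eE S c ^ 2 + (1 - c.2.2 ^ 2) * P.eB S c := by
  have h1 := h.one_sub hc
  have h2 := h.zz_dz hc
  unfold eB
  linear_combination dz (zz S) c ^ 2 * h1 +
    (zz S c * dz (zz S) c + c.2.2 * P.eE S c + (1 - c.2.2 ^ 2) * P.eT S c) * h2

lemma f2_id : P.f1 S c + (1 - c.2.2 ^ 2) * P.f2 S c =
    P.fL S c + P.f1 S c * (1 - c.2.2 ^ 2) ^ 2 * dz (hh S) c ^ 2 := by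
  have h1 := h.one_sub hc
  have h2 := h.dz_sq hc
  have h3 : P.aQ S c ≠ 0 := (h.q_pos hc).ne'
  have h4 := (h.sg_pos hc).ne'
  have h5 := (P.eE_pos S c).ne'
  have h6 : P.sg S c ^ 2 - P.aQ S c = (1 - c.2.2 ^ 2) * P.a ^ 2 * (P.Dl (P.rad S c) -
      P.eE S c * (P.rad S c ^ 2 + P.a ^ 2 + P.sg S c)) := by
    unfold aQ Q2 sg
    linear_combination -(P.a ^ 2 * (2 * P.rad S c ^ 2 + P.a ^ 2 + P.a ^ 2 * zz S c ^ 2)) * h1
  have h7 : P.f1 S c + (1 - c.2.2 ^ 2) * (P.aA S c * (P.sg S c ^ 2 * P.eB S c +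
      P.eE S c ^ 2 * P.a ^ 2 * (P.Dl (P.rad S c) - P.eE S c * (P.rad S c ^ 2 + P.a ^ 2 + P.sg S c))) /
      (P.aQ S c * P.eE S c * P.sg S c)) = P.fL S c := by
    unfold f1 fL
    rw [h2]
    field_simp
    linear_combination -(P.aA S c * P.eE S c ^ 2) * h6
  unfold f2
  linear_combination h7

lemma f0_pos : 0 < P.f0 S c :=
  div_pos (mul_pos (mul_pos (sub_pos.2 (h.r_lt hc)) (h.eta_pos hc)) (h.sg_pos hc)) (h.A_pos hc)

lemma f1_pos : 0 < P.f1 S c := div_pos (mul_pos (h.A_pos hc) (P.eE_pos S c)) (h.sg_pos hc)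

lemma fL_pos : 0 < P.fL S c :=
  div_pos (mul_pos (mul_pos (h.sg_pos hc) (h.A_pos hc)) (pow_pos (h.dzz_pos hc) 2))
    (mul_pos (h.q_pos hc) (P.eE_pos S c))

lemma det_pos : 0 < P.f1 S c * (P.f1 S c + (1 - c.2.2 ^ 2) * P.f2 S c) -
    (1 - c.2.2 ^ 2) ^ 2 * P.f3 S c ^ 2 := by
  rw [h.f2_id hc]
  have := mul_pos (h.f1_pos hc) (h.fL_pos hc)
  unfold f3
  linarith

lemma rho_f0 : c.1 * c.2.1 * P.f0 S c = -(P.Dl (P.rad S c) * P.sg S c / P.aA S c) := by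
  rw [h.Dl_eq hc]
  unfold f0
  ring

lemma rho_f4 : c.1 * c.2.1 * P.f4 S c =
    P.a * (P.rad S c ^ 2 + P.a ^ 2 - P.Dl (P.rad S c)) / P.aA S c - P.a / (P.m ^ 2 + P.a ^ 2) := by
  have h1 := WW_id (h.A_pos hc)
  have h2 : P.rad S c - P.m = c.2.1 * c.1 * eta S c := by rw [rad_eq]; ring
  rw [h2] at h1
  unfold f4 aA
  linear_combination h1

lemma ks_rad : -(P.k * c.2.1) * ds (P.rad S) c =
    P.Dl (P.rad S c) / P.aA S c * P.qq (P.rad S c) c.2.2 := by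
  rw [h.ds_rad hc]
  unfold aA
  linear_combination -P.qq (P.rad S c) c.2.2 * h.cf_s hc

lemma ks_zz : -(P.k * c.2.1) * ds (zz S) c =
    P.Dl (P.rad S c) / P.aA S c * ((1 - zz S c ^ 2) * pp S c) := by
  rw [h.ds_zz hc]
  unfold aA
  linear_combination -((1 - zz S c ^ 2) * pp S c) * h.cf_s hc

lemma ks_hh : -(P.k * c.2.1) * ds (hh S) c = c.1 * c.2.1 * P.f4 S c := by
  have := P.k_pos.ne'
  rw [h.ds_hh hc]
  unfold f4
  field_simp

lemma dz_rad (hd : 0 < c.1) (hs : 0 < c.2.1) : dz (P.rad S) c =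
    -(P.Dl (P.rad S c) * pp S c * dz (zz S) c / P.qq (P.rad S c) c.2.2) := by
  have h1 := h.beta_z hc hd hs
  have h2 := (h.Dl_neg hc hd hs).ne
  have h3 := (P.qq_pos (h.q_pos hc)).ne'
  field_simp at h1 ⊢
  linear_combination h1

end Chr

/-- globally smooth coefficients -/
theorem Chr.exists_F (h : P.Chr ε S) (hε : 0 < ε) : ∃ F : ℕ → R3 → ℝ,
    (∀ i, ContDiff ℝ ∞ (F i)) ∧ (∀ i s z, F i (0, s, z) = F i (0, 0, z)) ∧
    (∀ d s, ∀ z ∈ Icc (-1 : ℝ) 1, 0 < F 0 (d, s, z) ∧ 0 < F 1 (d, s, z) ∧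
      0 < F 1 (d, s, z) * (F 1 (d, s, z) + (1 - z ^ 2) * F 2 (d, s, z)) -
        (1 - z ^ 2) ^ 2 * F 3 (d, s, z) ^ 2) ∧
    ∀ i, ∀ c : R3, |c.1| ≤ ε / 2 → c.2.1 ∈ Icc (0 : ℝ) (3 / 2) → |c.2.2| ≤ 1 →
      c ∈ box ε ∧ F i c = P.ff S i c := by
  obtain ⟨c1, c1s, c1i, c1b⟩ := exists_clamp' (r := ε / 2) (r' := ε) (by positivity) (by linarith)
  obtain ⟨c2, c2s, c2i, c2b⟩ := exists_clamp' (r := 3 / 2) (r' := 2) (by norm_num) (by norm_num)
  let cl : R3 → R3 := fun c => (c1 c.1, c2 c.2.1, c2 c.2.2)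
  have cls : ContDiff ℝ ∞ cl := by
    simp only [cl]
    fun_prop
  have clb : ∀ c, cl c ∈ box ε := fun c => ⟨c1b _, c2b _, c2b _⟩
  refine ⟨fun i c => P.ff S i (cl c), fun i => (h.ff_s i).comp_contDiff cls clb, fun i s z => ?_,
    fun d s z hz => ?_, fun i c h1 h2 h3 => ?_⟩
  · simp only [cl]
    rw [c1i 0 (by simp only [abs_zero]; positivity)]
    exact h.ff_flat i _ _ _
  · have e : (cl (d, s, z)).2.2 = z := c2i z (by linarith [abs_le.2 hz])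
    have h3 := h.det_pos (clb (d, s, z))
    rw [e] at h3
    exact ⟨h.f0_pos (clb _), h.f1_pos (clb _), h3⟩
  · have e : cl c = c := by
      simp only [cl]
      rw [c1i _ h1, c2i _ (abs_le.2 ⟨by linarith [h2.1], h2.2⟩), c2i _ (by linarith)]
    refine ⟨e ▸ clb c, ?_⟩
    simp only [e]

end Par

end Vale.Agent.P354R
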