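import Vale.Agent.P354R.Ode

/-!
Identities along the characteristics: the conservation law and the eikonal equation.
-/

open scoped ContDiff
open Set Filter Topology

set_option linter.unusedSectionVars false

namespace Vale.Agent.P354R

namespace Par

variable {P : Par} {ε : ℝ} {S : R3 → W4}

/-- the components -/
def eta (S : R3 → W4) (c : R3) : ℝ := (S c).1
def zz (S : R3 → W4) (c : R3) : ℝ := (S c).2.1
def pp (S : R3 → W4) (c : R3) : ℝ := (S c).2.2.1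
def hh (S : R3 → W4) (c : R3) : ℝ := (S c).2.2.2
def rad (P : Par) (S : R3 → W4) (c : R3) : ℝ := P.rr (c, S c)
noncomputable def cf (P : Par) (S : R3 → W4) (c : R3) : ℝ := P.cc (c, S c)

lemma rad_eq (c : R3) : P.rad S c = P.m + c.2.1 * c.1 * eta S c := rfl

lemma cf_eq (c : R3) :
    P.cf S c = c.1 * eta S c * (P.R - P.rad S c) / (P.k * P.Q2 (P.rad S c) (zz S c)) := rfl

lemma GG_id {r ζ z : ℝ} (h : 0 < P.Q2 r ζ) (h' : 0 < P.Q2 r z) :
    1 + (r - P.m) * P.GG r ζ z = (P.R - r) * P.qq r ζ / (P.k * P.Q2 r z) := by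
  have hq := P.qq_pos h
  have hq2 := P.qq_sq h
  have hk := P.k_pos
  have ha := P.a2_pos
  have hs : 0 < P.qq r ζ + (r ^ 2 + P.a ^ 2) := by positivity
  have e1 : (r - P.m) * ((P.R - r) ^ 2 * P.a ^ 2 * (1 - ζ ^ 2) / (P.qq r ζ + (r ^ 2 + P.a ^ 2))) =
      (P.R - r) * (P.qq r ζ - (r ^ 2 + P.a ^ 2)) := by
    rw [mul_div_assoc', div_eq_iff hs.ne']
    unfold Q2 Dl at hq2
    linear_combination (r - P.R) * hq2
  unfold GG
  rw [mul_div_assoc', mul_sub, mul_add, e1, eq_div_iff (by positivity), add_mul, one_mul,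
    div_mul_cancel₀ _ (by positivity)]
  unfold Q2 Dl
  linear_combination (r ^ 2 + P.a ^ 2) * P.hk

namespace Chr

variable (h : P.Chr ε S)
include h

lemma eta_s : ContDiff ℝ ∞ (eta S) := h.smooth.fst
lemma zz_s : ContDiff ℝ ∞ (zz S) := h.smooth.snd.fst
lemma pp_s : ContDiff ℝ ∞ (pp S) := h.smooth.snd.snd.fst
lemma hh_s : ContDiff ℝ ∞ (hh S) := h.smooth.snd.snd.snd
lemma rad_s : ContDiff ℝ ∞ (P.rad S) := P.rr_smooth.comp (contDiff_id.prodMk h.smooth)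

variable {c : R3} (hc : c ∈ box ε)
include hc

lemma q_pos : 0 < P.Q2 (P.rad S c) c.2.2 := (h.mem c hc).1.1
lemma A_pos : 0 < P.Q2 (P.rad S c) (zz S c) := (h.mem c hc).1.2
lemma r_pos : 0 < P.rad S c := (h.mem c hc).2.1
lemma r_lt : P.rad S c < P.R := (h.mem c hc).2.2.1
lemma eta_pos : 0 < eta S c := (h.mem c hc).2.2.2.1
lemma dzz_pos : 0 < dz (zz S) c := (h.mem c hc).2.2.2.2

lemma ds_eta : ds (eta S) c = c.1 * eta S c ^ 2 * P.GG (P.rad S c) c.2.2 (zz S c) := by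
  obtain ⟨d, s, ζ⟩ := c
  exact (hasDerivAt_ds (dAt h.eta_s _)).unique
    ((ContinuousLinearMap.fst ℝ ℝ (ℝ × ℝ × ℝ)).hasFDerivAt.comp_hasDerivAt s (h.ode d s ζ hc))

lemma ode2 : HasDerivAt (fun t => (S (c.1, t, c.2.2)).2) (P.fld (c, S c)).2 c.2.1 :=
  (ContinuousLinearMap.snd ℝ ℝ (ℝ × ℝ × ℝ)).hasFDerivAt.comp_hasDerivAt c.2.1
    (h.ode c.1 c.2.1 c.2.2 hc)

lemma ode3 : HasDerivAt (fun t => (S (c.1, t, c.2.2)).2.2) (P.fld (c, S c)).2.2 c.2.1 :=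
  (ContinuousLinearMap.snd ℝ ℝ (ℝ × ℝ)).hasFDerivAt.comp_hasDerivAt c.2.1 (h.ode2 hc)

lemma ds_zz : ds (zz S) c = P.cf S c * (1 - zz S c ^ 2) * pp S c := by
  obtain ⟨d, s, ζ⟩ := c
  exact (hasDerivAt_ds (dAt h.zz_s _)).unique
    ((ContinuousLinearMap.fst ℝ ℝ (ℝ × ℝ)).hasFDerivAt.comp_hasDerivAt s (h.ode2 hc))

lemma ds_pp : ds (pp S) c = P.cf S c * zz S c * (pp S c ^ 2 + P.a ^ 2) := by
  obtain ⟨d, s, ζ⟩ := c
  exact (hasDerivAt_ds (dAt h.pp_s _)).unique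
    ((ContinuousLinearMap.fst ℝ ℝ ℝ).hasFDerivAt.comp_hasDerivAt s (h.ode3 hc))

lemma ds_hh : ds (hh S) c = -(c.1 * eta S c * P.WW (P.rad S c) (zz S c) / P.k) := by
  obtain ⟨d, s, ζ⟩ := c
  exact (hasDerivAt_ds (dAt h.hh_s _)).unique
    ((ContinuousLinearMap.snd ℝ ℝ ℝ).hasFDerivAt.comp_hasDerivAt s (h.ode3 hc))

lemma ds_rad : ds (P.rad S) c = P.cf S c * P.qq (P.rad S c) c.2.2 := by
  have h1 := h.ds_eta hc
  have h2 := GG_id (h.q_pos hc) (h.A_pos hc)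
  obtain ⟨d, s, ζ⟩ := c
  have h3 : HasDerivAt (fun t => P.m + t * d * eta S (d, t, ζ))
      (1 * d * eta S (d, s, ζ) + s * d * ds (eta S) (d, s, ζ)) s :=
    (((hasDerivAt_id s).mul_const d).mul (hasDerivAt_ds (dAt h.eta_s _))).const_add _
  rw [(hasDerivAt_ds (dAt h.rad_s _)).unique h3, h1, cf_eq]
  have h4 : P.rad S (d, s, ζ) - P.m = s * d * eta S (d, s, ζ) := by rw [rad_eq]; ring
  rw [h4] at h2
  simp only at h2 ⊢
  linear_combination d * eta S (d, s, ζ) * h2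

end Chr

lemma const_of_deriv {f : ℝ → ℝ} {a b s t : ℝ} (hf : ∀ x ∈ Ioo a b, HasDerivAt f 0 x)
    (hs : s ∈ Ioo a b) (ht : t ∈ Ioo a b) : f s = f t :=
  isOpen_Ioo.is_const_of_deriv_eq_zero isPreconnected_Ioo
    (fun x hx => (hf x hx).differentiableAt.differentiableWithinAt) (fun x hx => (hf x hx).deriv)
    hs ht

lemma box_s {c : R3} (hc : c ∈ box ε) {s : ℝ} (hs : s ∈ Ioo (-2 : ℝ) 2) :
    ((c.1, s, c.2.2) : R3) ∈ box ε := ⟨hc.1, abs_lt.2 hs, hc.2.2⟩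

lemma box_ev {d s ζ : ℝ} (hc : ((d, s, ζ) : R3) ∈ box ε) :
    ∀ᶠ t in 𝓝 ζ, ((d, s, t) : R3) ∈ box ε := by
  have : Continuous fun t : ℝ => ((d, s, t) : R3) := by fun_prop
  exact this.continuousAt.eventually ((box_open ε).mem_nhds hc)

/-- derivative of q / Delta along a curve -/
lemma hasDerivAt_m {r ζ : ℝ → ℝ} {r' ζ' t : ℝ} (hr : HasDerivAt r r' t) (hζ : HasDerivAt ζ ζ' t)
    (h : 0 < P.Q2 (r t) (ζ t)) (hD : P.Dl (r t) ≠ 0) :
    HasDerivAt (fun t => P.qq (r t) (ζ t) / P.Dl (r t))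
      (((4 * r t * (r t ^ 2 + P.a ^ 2) - P.a ^ 2 * (1 - ζ t ^ 2) * (2 * r t - P.R - P.m)) /
        (2 * P.qq (r t) (ζ t)) * P.Dl (r t) - P.qq (r t) (ζ t) * (2 * r t - P.R - P.m)) /
          P.Dl (r t) ^ 2 * r' + P.a ^ 2 * ζ t / P.qq (r t) (ζ t) * ζ') t := by
  have hq := P.qq_pos h
  have h1 : HasDerivAt (fun t => P.Dl (r t)) ((2 * r t - P.R - P.m) * r') t := by
    have := (hr.sub_const P.R).mul (hr.sub_const P.m)
    exact this.congr_deriv (by ring)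
  have h2 : HasDerivAt (fun t => P.Q2 (r t) (ζ t))
      (4 * r t * (r t ^ 2 + P.a ^ 2) * r' + 2 * P.a ^ 2 * ζ t * ζ' * P.Dl (r t) -
        P.a ^ 2 * (1 - ζ t ^ 2) * ((2 * r t - P.R - P.m) * r')) t := by
    have := (((hr.pow 2).add_const (P.a ^ 2)).pow 2).sub
      ((((hζ.pow 2).const_sub 1).const_mul (P.a ^ 2)).mul h1)
    refine this.congr_deriv ?_
    simp only [Pi.pow_apply]
    push_cast
    ring
  have h3 := (h2.sqrt h.ne').div h1 hD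
  refine h3.congr_deriv ?_
  change (_ / (2 * P.qq _ _) * _ - P.qq _ _ * _) / _ = _
  field_simp
  ring

namespace Chr

variable (h : P.Chr ε S)
include h

lemma eta_one (d ζ : ℝ) : eta S (d, 1, ζ) = 1 := by simp [eta, h.init]
lemma zz_one (d ζ : ℝ) : zz S (d, 1, ζ) = ζ := by simp [zz, h.init]
lemma pp_one (d ζ : ℝ) : pp S (d, 1, ζ) = 0 := by simp [pp, h.init]
lemma hh_one (d ζ : ℝ) : hh S (d, 1, ζ) = 0 := by simp [hh, h.init]
lemma rad_one (d ζ : ℝ) : P.rad S (d, 1, ζ) = P.m + d := by simp [rad_eq, h.eta_one]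

lemma dz_rad_one (d ζ : ℝ) : dz (P.rad S) (d, 1, ζ) = 0 := by
  have h1 := hasDerivAt_dz (dAt h.rad_s (d, 1, ζ))
  simp only [h.rad_one] at h1
  exact h1.unique (hasDerivAt_const _ _)

lemma dz_zz_one (d ζ : ℝ) : dz (zz S) (d, 1, ζ) = 1 := by
  have h1 := hasDerivAt_dz (dAt h.zz_s (d, 1, ζ))
  simp only [h.zz_one] at h1
  exact h1.unique (hasDerivAt_id _)

lemma dz_pp_one (d ζ : ℝ) : dz (pp S) (d, 1, ζ) = 0 := by
  have h1 := hasDerivAt_dz (dAt h.pp_s (d, 1, ζ))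
  simp only [h.pp_one] at h1
  exact h1.unique (hasDerivAt_const _ _)

lemma dz_hh_one (d ζ : ℝ) : dz (hh S) (d, 1, ζ) = 0 := by
  have h1 := hasDerivAt_dz (dAt h.hh_s (d, 1, ζ))
  simp only [h.hh_one] at h1
  exact h1.unique (hasDerivAt_const _ _)

lemma eta_zero (s ζ : ℝ) : eta S (0, s, ζ) = 1 := by simp [eta, h.flat]
lemma zz_zero (s ζ : ℝ) : zz S (0, s, ζ) = ζ := by simp [zz, h.flat]
lemma pp_zero (s ζ : ℝ) : pp S (0, s, ζ) = 0 := by simp [pp, h.flat]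
lemma hh_zero (s ζ : ℝ) : hh S (0, s, ζ) = 0 := by simp [hh, h.flat]
lemma rad_zero (s ζ : ℝ) : P.rad S (0, s, ζ) = P.m := by simp [rad_eq]

lemma dz_zz_zero (s ζ : ℝ) : dz (zz S) (0, s, ζ) = 1 := by
  have h1 := hasDerivAt_dz (dAt h.zz_s (0, s, ζ))
  simp only [h.zz_zero] at h1
  exact h1.unique (hasDerivAt_id _)

lemma dz_pp_zero (s ζ : ℝ) : dz (pp S) (0, s, ζ) = 0 := by
  have h1 := hasDerivAt_dz (dAt h.pp_s (0, s, ζ))
  simp only [h.pp_zero] at h1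
  exact h1.unique (hasDerivAt_const _ _)

lemma dz_hh_zero (s ζ : ℝ) : dz (hh S) (0, s, ζ) = 0 := by
  have h1 := hasDerivAt_dz (dAt h.hh_s (0, s, ζ))
  simp only [h.hh_zero] at h1
  exact h1.unique (hasDerivAt_const _ _)

variable {c : R3} (hc : c ∈ box ε)
include hc

/-- the conservation law (Carter constant) -/
lemma cons : (1 - zz S c ^ 2) * (pp S c ^ 2 + P.a ^ 2) = P.a ^ 2 * (1 - c.2.2 ^ 2) := by
  obtain ⟨d, s, ζ⟩ := c
  have h1 : ∀ x ∈ Ioo (-2 : ℝ) 2, HasDerivAt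
      (fun t => (1 - zz S (d, t, ζ) ^ 2) * (pp S (d, t, ζ) ^ 2 + P.a ^ 2)) 0 x := fun x hx => by
    have hx' := box_s hc hx
    have := (((hasDerivAt_ds (dAt h.zz_s (d, x, ζ))).pow 2).const_sub 1).mul
      (((hasDerivAt_ds (dAt h.pp_s (d, x, ζ))).pow 2).add_const (P.a ^ 2))
    refine this.congr_deriv ?_
    rw [h.ds_zz hx', h.ds_pp hx']
    simp only [Pi.pow_apply]
    push_cast
    ring
  have h2 := const_of_deriv h1 (abs_lt.1 hc.2.1) (t := 1) (by norm_num)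
  simp only [h.zz_one, h.pp_one] at h2
  rw [h2]
  ring

lemma cons' : zz S c * dz (zz S) c * (pp S c ^ 2 + P.a ^ 2) -
    (1 - zz S c ^ 2) * pp S c * dz (pp S) c = P.a ^ 2 * c.2.2 := by
  obtain ⟨d, s, ζ⟩ := c
  have h1 := (((hasDerivAt_dz (dAt h.zz_s (d, s, ζ))).pow 2).const_sub 1).mul
      (((hasDerivAt_dz (dAt h.pp_s (d, s, ζ))).pow 2).add_const (P.a ^ 2))
  have h2 := (((hasDerivAt_id ζ).pow 2).const_sub 1).const_mul (P.a ^ 2)
  have h3 := h2.congr_of_eventuallyEq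
    (f₁ := fun t => (1 - zz S (d, s, t) ^ 2) * (pp S (d, s, t) ^ 2 + P.a ^ 2))
    ((box_ev hc).mono fun t ht => h.cons ht)
  have h4 := h1.unique h3
  simp only [Pi.pow_apply, id] at h4
  push_cast at h4
  simp only
  linear_combination (-1 / 2) * h4

/-- q^2 + Delta (1 - z^2) p^2 = A -/
lemma qA : P.qq (P.rad S c) c.2.2 ^ 2 + P.Dl (P.rad S c) * (1 - zz S c ^ 2) * pp S c ^ 2 =
    P.Q2 (P.rad S c) (zz S c) := by
  rw [P.qq_sq (h.q_pos hc)]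
  unfold Q2
  linear_combination P.Dl (P.rad S c) * h.cons hc

lemma Dl_eq : P.Dl (P.rad S c) = -((P.R - P.rad S c) * (c.2.1 * c.1 * eta S c)) := by
  unfold Dl
  rw [rad_eq]
  ring

lemma Dl_neg (hd : 0 < c.1) (hs : 0 < c.2.1) : P.Dl (P.rad S c) < 0 := by
  rw [h.Dl_eq hc]
  have := h.eta_pos hc
  have := sub_pos.2 (h.r_lt hc)
  exact neg_neg_of_pos (by positivity)

lemma cf_s : P.k * c.2.1 * P.cf S c = -(P.Dl (P.rad S c) / P.Q2 (P.rad S c) (zz S c)) := by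
  have := h.A_pos hc
  have := P.k_pos
  rw [h.Dl_eq hc, cf_eq]
  field_simp

/-- the form (q / Delta) dr + p dz on d/ds -/
lemma beta_s (hd : 0 < c.1) (hs : 0 < c.2.1) :
    P.qq (P.rad S c) c.2.2 / P.Dl (P.rad S c) * ds (P.rad S) c + pp S c * ds (zz S) c =
      -(1 / (P.k * c.2.1)) := by
  have h1 := h.cf_s hc
  have h2 := h.qA hc
  have h3 := (h.Dl_neg hc hd hs).ne
  have h4 := (h.A_pos hc).ne'
  have h5 := P.k_pos.ne'
  have h6 : P.cf S c = -(P.Dl (P.rad S c) / P.Q2 (P.rad S c) (zz S c)) / (P.k * c.2.1) := by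
    rw [← h1]
    field_simp
  rw [h.ds_rad hc, h.ds_zz hc, h6]
  field_simp
  linear_combination -h2

/-- the eikonal equation: the form (q / Delta) dr + p dz is zero on d/dzeta -/
lemma beta_z (hd : 0 < c.1) (hs : 0 < c.2.1) :
    P.qq (P.rad S c) c.2.2 / P.Dl (P.rad S c) * dz (P.rad S) c + pp S c * dz (zz S) c = 0 := by
  obtain ⟨d, s, ζ⟩ := c
  have h1 : ∀ x ∈ Ioo (0 : ℝ) 2, HasDerivAt
      (fun t => P.qq (P.rad S (d, t, ζ)) ζ / P.Dl (P.rad S (d, t, ζ)) * dz (P.rad S) (d, t, ζ) +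
        pp S (d, t, ζ) * dz (zz S) (d, t, ζ)) 0 x := fun x hx => by
    have hx' : ((d, x, ζ) : R3) ∈ box ε := box_s hc ⟨by linarith [hx.1], hx.2⟩
    have hD := (h.Dl_neg hx' hd hx.1).ne
    have hq := P.qq_pos (h.q_pos hx')
    have a1 := ((hasDerivAt_m (P := P) (hasDerivAt_ds (dAt h.rad_s (d, x, ζ)))
      (hasDerivAt_const x ζ) (h.q_pos hx') hD).mul
      (hasDerivAt_ds (dAt (dz_smooth h.rad_s) (d, x, ζ)))).add
      ((hasDerivAt_ds (dAt h.pp_s (d, x, ζ))).mul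
      (hasDerivAt_ds (dAt (dz_smooth h.zz_s) (d, x, ζ))))
    have a2 := ((hasDerivAt_m (P := P) (hasDerivAt_dz (dAt h.rad_s (d, x, ζ)))
      (hasDerivAt_id ζ) (h.q_pos hx') hD).mul
      (hasDerivAt_dz (dAt (ds_smooth h.rad_s) (d, x, ζ)))).add
      ((hasDerivAt_dz (dAt h.pp_s (d, x, ζ))).mul
      (hasDerivAt_dz (dAt (ds_smooth h.zz_s) (d, x, ζ))))
    have a3 := (hasDerivAt_const ζ (-(1 / (P.k * x)))).congr_of_eventuallyEq
      (f₁ := fun t => P.qq (P.rad S (d, x, t)) t / P.Dl (P.rad S (d, x, t)) *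
        ds (P.rad S) (d, x, t) + pp S (d, x, t) * ds (zz S) (d, x, t))
      ((box_ev hx').mono fun t ht => h.beta_s ht hd hx.1)
    have a4 := a2.unique a3
    refine a1.congr_deriv ?_
    have a5 := h.cons' hx'
    rw [ds_dz h.rad_s, ds_dz h.zz_s, h.ds_pp hx']
    rw [h.ds_zz hx'] at a4
    simp only [id] at a4 a5 ⊢
    have a6 : P.a ^ 2 * ζ / P.qq (P.rad S (d, x, ζ)) ζ * ds (P.rad S) (d, x, ζ) =
        P.a ^ 2 * ζ * P.cf S (d, x, ζ) := by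
      rw [h.ds_rad hx']
      simp only at hq ⊢
      field_simp
    linear_combination a4 + P.cf S (d, x, ζ) * a5 - a6
  have h2 := const_of_deriv h1 (s := s) ⟨hs, (abs_lt.1 hc.2.1).2⟩ (t := 1) (by norm_num)
  simp only [h.dz_rad_one, h.pp_one] at h2
  simp only
  rw [h2]
  ring

end Chr

end Par

end Vale.Agent.P354R
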