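import Vale.Agent.P354R.Bg

/-!
The frame of the spheres which does not rotate along n, as functions of
q = (e, s, y1, y2), e = sqrt d, s = exp (- k tau / 2).
-/

open scoped ContDiff
open Set Filter Topology

set_option linter.unusedSectionVars false

namespace Vale.Agent.P354R

open Vale.Agent.P354n (R4)

/-- the derivative in s -/
noncomputable def dS (f : R4 → ℝ) (q : R4) : ℝ := fderiv ℝ f q (0, 1, 0, 0)

lemma dir_smooth {f : R4 → ℝ} (h : ContDiff ℝ ∞ f) (v : R4) :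
    ContDiff ℝ ∞ (fun c => fderiv ℝ f c v) :=
  (h.fderiv_right (m := ∞) (by simp)).clm_apply contDiff_const

lemma dA {f : R4 → ℝ} (h : ContDiff ℝ ∞ f) (c : R4) : DifferentiableAt ℝ f c :=
  h.differentiable (by simp) c

lemma hasDerivAt_dS {f : R4 → ℝ} (h : ContDiff ℝ ∞ f) (e s : ℝ) (y : ℝ × ℝ) :
    HasDerivAt (fun t => f (e, t, y)) (dS f (e, s, y)) s := by
  have h1 : HasDerivAt (fun t : ℝ => ((e, t, y) : R4)) (0, 1, 0, 0) s :=
    (hasDerivAt_const _ _).prodMk ((hasDerivAt_id _).prodMk (hasDerivAt_const _ _))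
  exact HasFDerivAt.comp_hasDerivAt s (f := fun t : ℝ => ((e, t, y) : R4)) (dA h _).hasFDerivAt h1

/-- f does not depend on s for e = 0 -/
def Flat (f : R4 → ℝ) : Prop := ∀ s y, f (0, s, y) = f (0, 0, y)

lemma Flat.dS {f : R4 → ℝ} (h : ContDiff ℝ ∞ f) (hf : Flat f) (s : ℝ) (y : ℝ × ℝ) :
    dS f (0, s, y) = 0 := by
  have h1 := hasDerivAt_dS h 0 s y
  have h2 : (fun t => f (0, t, y)) = fun _ => f (0, 0, y) := funext fun t => hf t y
  rw [h2] at h1
  exact h1.unique (hasDerivAt_const _ _)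

/-- a smooth primitive in s -/
lemma exists_prim {α : R4 → ℝ} (hα : ContDiff ℝ ∞ α) : ∃ χ : R4 → ℝ, ContDiff ℝ ∞ χ ∧
    (∀ e y, χ (e, 1, y) = 0) ∧ ∀ q, dS χ q = α q := by
  let Y : R4 × ℝ → R4 × ℝ := fun z => ((0, 1, 0, 0), α z.1)
  have Ys : ContDiff ℝ ∞ Y := contDiff_const.prodMk (hα.comp contDiff_fst)
  have cur : ∀ (z : R4 × ℝ) (t : ℝ), HasDerivAt (fun t : ℝ => ((z.1 + t • ((0, 1, 0, 0) : R4),
      z.2 + ∫ s in (0 : ℝ)..t, α (z.1 + s • ((0, 1, 0, 0) : R4))) : R4 × ℝ))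
      (((0, 1, 0, 0) : R4), α (z.1 + t • ((0, 1, 0, 0) : R4))) t := fun z t => by
    have hc : Continuous fun s : ℝ => α (z.1 + s • ((0, 1, 0, 0) : R4)) :=
      hα.continuous.comp (by fun_prop)
    have h1 : HasDerivAt (fun t : ℝ => z.1 + t • ((0, 1, 0, 0) : R4)) ((1 : ℝ) • (0, 1, 0, 0)) t :=
      ((hasDerivAt_id t).smul_const _).const_add _
    rw [one_smul] at h1
    exact h1.prodMk ((hc.integral_hasStrictDerivAt 0 t).hasDerivAt.const_add _)
  obtain ⟨Φ, Φs, Φ0, Φd, Φu⟩ := P265.H185.exists_global_flow Y Ys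
    (fun z => ⟨_, by simp, cur z⟩)
  have hΦ : ∀ z t, Φ t z = (z.1 + t • ((0, 1, 0, 0) : R4),
      z.2 + ∫ s in (0 : ℝ)..t, α (z.1 + s • ((0, 1, 0, 0) : R4))) := fun z t => by
    have := Φu _ (cur z) t
    simp only [zero_smul, add_zero, intervalIntegral.integral_same] at this
    exact this.symm
  let χ : R4 → ℝ := fun q => (Φ (q.2.1 - 1) ((q.1, 1, q.2.2), 0)).2
  have χs : ContDiff ℝ ∞ χ := by
    have h1 : ContDiff ℝ ∞ (fun q : R4 => ((q.2.1 - 1, ((q.1, 1, q.2.2), 0)) : ℝ × (R4 × ℝ))) := by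
      fun_prop
    exact (Φs.comp h1).snd
  refine ⟨χ, χs, fun e y => by simp [χ, Φ0], fun ⟨e, s, y⟩ => ?_⟩
  have h1 := (Φd (s - 1) ((e, 1, y), 0)).scomp s ((hasDerivAt_id s).sub_const 1)
  have h2 := (ContinuousLinearMap.snd ℝ R4 ℝ).hasFDerivAt.comp_hasDerivAt s h1
  refine ((hasDerivAt_dS χs e s y).unique h2).trans ?_
  simp [Y, hΦ, show ((0, 0) : ℝ × ℝ) = 0 from rfl]

/-- the arguments of the coefficient functions -/
noncomputable def arQ (σ : Bool) (q : R4) : R3 := (q.1 ^ 2, q.2.1 ^ 2, ht σ q.2.2)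

lemma arQ_smooth (σ : Bool) : ContDiff ℝ ∞ (arQ σ) := by
  have := ht_smooth σ
  unfold arQ
  fun_prop

/-- the metric of the spheres -/
noncomputable def gq (F : ℕ → R3 → ℝ) (σ : Bool) (q : R4) (A B : ℝ × ℝ) : ℝ :=
  F 1 (arQ σ q) * rnd q.2.2 A B + F 2 (arQ σ q) * (dht σ q.2.2 A * dht σ q.2.2 B) +
    F 3 (arQ σ q) * (alp q.2.2 A * dht σ q.2.2 B + dht σ q.2.2 A * alp q.2.2 B)

lemma gq_exp (F : ℕ → R3 → ℝ) (σ : Bool) (q : R4) (A B : ℝ × ℝ) : gq F σ q A B =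
    gq F σ q (1, 0) (1, 0) * (A.1 * B.1) + gq F σ q (1, 0) (0, 1) * (A.1 * B.2 + A.2 * B.1) +
      gq F σ q (0, 1) (0, 1) * (A.2 * B.2) := by
  simp only [gq, rnd, dht, alp]
  ring

lemma root_alg {a b c s t : ℝ} (hs : s ^ 2 = a * c - b ^ 2) (ht : t ^ 2 = a + c + 2 * s)
    (hs0 : s ≠ 0) (ht0 : t ≠ 0) :
    (c + s) / (s * t) * ((a + s) / (s * t)) - -b / (s * t) * (-b / (s * t)) = 1 / s := by
  field_simp
  linear_combination -hs - s * ht

/-- The frame: rows (p 0, p 1) and (p 2, p 3). -/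
structure Fr (F : ℕ → R3 → ℝ) (σ : Bool) (p : ℕ → R4 → ℝ) : Prop where
  smooth : ∀ i, ContDiff ℝ ∞ (p i)
  flat : ∀ i, Flat (p i)
  det : ∀ q, 0 < p 0 q * p 3 q - p 1 q * p 2 q
  met : ∀ q (A B : ℝ × ℝ), gq F σ q A B * (p 0 q * p 3 q - p 1 q * p 2 q) ^ 2 =
    (p 3 q * A.1 - p 2 q * A.2) * (p 3 q * B.1 - p 2 q * B.2) +
      (p 0 q * A.2 - p 1 q * A.1) * (p 0 q * B.2 - p 1 q * B.1)
  rot : ∀ q, p 0 q * dS (p 1) q - p 1 q * dS (p 0) q = p 3 q * dS (p 2) q - p 2 q * dS (p 3) q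
  sym : ∀ e y, p 1 (e, 1, y) = p 2 (e, 1, y) ∧ 0 < p 0 (e, 1, y)

lemma dS_mul {f g : R4 → ℝ} (hf : ContDiff ℝ ∞ f) (hg : ContDiff ℝ ∞ g) (q : R4) :
    dS (fun q => f q * g q) q = dS f q * g q + f q * dS g q := by
  obtain ⟨e, s, y⟩ := q
  exact (hasDerivAt_dS (hf.mul hg) e s y).unique ((hasDerivAt_dS hf e s y).mul (hasDerivAt_dS hg e s y))

lemma dS_rot {χ f g : R4 → ℝ} (hχ : ContDiff ℝ ∞ χ) (hf : ContDiff ℝ ∞ f) (hg : ContDiff ℝ ∞ g)
    (q : R4) : dS (fun q => Real.cos (χ q) * f q + Real.sin (χ q) * g q) q =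
      Real.cos (χ q) * dS f q + Real.sin (χ q) * dS g q +
        dS χ q * (Real.cos (χ q) * g q - Real.sin (χ q) * f q) ∧
    dS (fun q => Real.cos (χ q) * g q - Real.sin (χ q) * f q) q =
      Real.cos (χ q) * dS g q - Real.sin (χ q) * dS f q -
        dS χ q * (Real.cos (χ q) * f q + Real.sin (χ q) * g q) := by
  obtain ⟨e, s, y⟩ := q
  have a1 := hasDerivAt_dS hχ e s y
  have a2 := hasDerivAt_dS hf e s y
  have a3 := hasDerivAt_dS hg e s y
  constructor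
  · refine ((hasDerivAt_dS (by fun_prop) e s y).unique ((a1.cos.mul a2).add (a1.sin.mul a3))).trans ?_
    ring
  · refine ((hasDerivAt_dS (by fun_prop) e s y).unique ((a1.cos.mul a3).sub (a1.sin.mul a2))).trans ?_
    ring

theorem exists_fr {F : ℕ → R3 → ℝ} (σ : Bool) (hF : ∀ i, ContDiff ℝ ∞ (F i))
    (hfl : ∀ i s z, F i (0, s, z) = F i (0, 0, z))
    (hp : ∀ d s, ∀ z ∈ Icc (-1 : ℝ) 1, 0 < F 0 (d, s, z) ∧ 0 < F 1 (d, s, z) ∧
      0 < F 1 (d, s, z) * (F 1 (d, s, z) + (1 - z ^ 2) * F 2 (d, s, z)) -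
        (1 - z ^ 2) ^ 2 * F 3 (d, s, z) ^ 2) : ∃ p, Fr F σ p := by
  have gs : ∀ A B, ContDiff ℝ ∞ fun q => gq F σ q A B := fun A B => by
    have h0 := arQ_smooth σ
    have h2 := hF 1
    have h3 := hF 2
    have h4 := hF 3
    have h7 := isd_smooth
    simp only [gq, rnd, dht, alp, div_eq_mul_inv]
    fun_prop
  have gf : ∀ A B s y, gq F σ (0, s, y) A B = gq F σ (0, 0, y) A B := fun A B s y => by
    simp only [gq, arQ, ne_eq, OfNat.ofNat_ne_zero, not_false_eq_true, zero_pow, hfl _ (s ^ 2)]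
  have gp : ∀ q A, A ≠ 0 → 0 < gq F σ q A A := fun q A hA => by
    let F' : ℕ → R3 → ℝ := fun i c => F i (q.1 ^ 2, q.2.1 ^ 2, c.2.2)
    obtain ⟨_, p1, p2⟩ := hp (q.1 ^ 2) (q.2.1 ^ 2) _ (ht_mem σ q.2.2)
    exact gam_pos (k := 0) (d := 0) (F := F') (p := q) σ p1 p2 hA
  set a : R4 → ℝ := fun q => gq F σ q (1, 0) (1, 0) with ha
  set b : R4 → ℝ := fun q => gq F σ q (1, 0) (0, 1) with hb
  set c : R4 → ℝ := fun q => gq F σ q (0, 1) (0, 1) with hc
  have as : ContDiff ℝ ∞ a := gs _ _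
  have bs : ContDiff ℝ ∞ b := gs _ _
  have cs : ContDiff ℝ ∞ c := gs _ _
  have ap : ∀ q, 0 < a q := fun q => gp q _ (by simp)
  have cp : ∀ q, 0 < c q := fun q => gp q _ (by simp)
  have dp : ∀ q, 0 < a q * c q - b q ^ 2 := fun q => by
    have h1 := gp q (-b q, a q) (fun h => (ap q).ne' (congrArg Prod.snd h))
    rw [gq_exp] at h1
    have h2 : 0 < a q * (a q * c q - b q ^ 2) := by
      simp only [ha, hb, hc] at h1 ⊢
      linarith
    exact (mul_pos_iff_of_pos_left (ap q)).1 h2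
  let s : R4 → ℝ := fun q => √(a q * c q - b q ^ 2)
  have ss : ContDiff ℝ ∞ s := ContDiff.sqrt (by fun_prop) fun q => (dp q).ne'
  have sp : ∀ q, 0 < s q := fun q => Real.sqrt_pos.2 (dp q)
  have s2 : ∀ q, s q ^ 2 = a q * c q - b q ^ 2 := fun q => Real.sq_sqrt (dp q).le
  have tp0 : ∀ q, 0 < a q + c q + 2 * s q := fun q => by linarith [ap q, cp q, sp q]
  let t : R4 → ℝ := fun q => √(a q + c q + 2 * s q)
  have ts : ContDiff ℝ ∞ t := ContDiff.sqrt (by fun_prop) fun q => (tp0 q).ne'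
  have tp : ∀ q, 0 < t q := fun q => Real.sqrt_pos.2 (tp0 q)
  have t2 : ∀ q, t q ^ 2 = a q + c q + 2 * s q := fun q => Real.sq_sqrt (tp0 q).le
  have st : ∀ q, s q * t q ≠ 0 := fun q => (mul_pos (sp q) (tp q)).ne'
  let u : R4 → ℝ := fun q => (c q + s q) / (s q * t q)
  let v : R4 → ℝ := fun q => -b q / (s q * t q)
  let w : R4 → ℝ := fun q => (a q + s q) / (s q * t q)
  have us : ContDiff ℝ ∞ u := ContDiff.div (by fun_prop) (by fun_prop) st
  have vs : ContDiff ℝ ∞ v := ContDiff.div (by fun_prop) (by fun_prop) st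
  have ws : ContDiff ℝ ∞ w := ContDiff.div (by fun_prop) (by fun_prop) st
  have uf : Flat u := fun r y => by simp only [u, s, t, ha, hb, hc, gf _ _ r]
  have vf : Flat v := fun r y => by simp only [v, s, t, ha, hb, hc, gf _ _ r]
  have wf : Flat w := fun r y => by simp only [w, s, t, ha, hb, hc, gf _ _ r]
  have dq : ∀ q, u q * w q - v q * v q = 1 / s q := fun q =>
    root_alg (s2 q) (t2 q) (sp q).ne' (tp q).ne'
  obtain ⟨χ, χs, χ1, χd⟩ := exists_prim (α := fun q => -(s q / 2 *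
    (u q * dS v q - v q * dS u q + v q * dS w q - w q * dS v q))) (by
      have h1 : ContDiff ℝ ∞ (dS u) := dir_smooth us _
      have h2 : ContDiff ℝ ∞ (dS v) := dir_smooth vs _
      have h3 : ContDiff ℝ ∞ (dS w) := dir_smooth ws _
      fun_prop)
  have χ0 : ∀ r y, χ (0, r, y) = 0 := fun r y => by
    have h1 : ∀ r, HasDerivAt (fun t => χ (0, t, y)) 0 r := fun r => by
      have := hasDerivAt_dS χs 0 r y
      rwa [χd, uf.dS us, vf.dS vs, wf.dS ws, show -(s (0, r, y) / 2 * (u (0, r, y) * 0 -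
        v (0, r, y) * 0 + v (0, r, y) * 0 - w (0, r, y) * 0)) = 0 by ring] at this
    rw [is_const_of_deriv_eq_zero (fun t => (h1 t).differentiableAt) (fun t => (h1 t).deriv) r 1, χ1]
  let p : ℕ → R4 → ℝ
    | 0 => fun q => Real.cos (χ q) * u q + Real.sin (χ q) * v q
    | 1 => fun q => Real.cos (χ q) * v q + Real.sin (χ q) * w q
    | 2 => fun q => Real.cos (χ q) * v q - Real.sin (χ q) * u q
    | 3 => fun q => Real.cos (χ q) * w q - Real.sin (χ q) * v q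
    | _ => fun _ => 0
  have pd : ∀ q, p 0 q * p 3 q - p 1 q * p 2 q = 1 / s q := fun q => by
    rw [← dq]
    simp only [p]
    linear_combination (u q * w q - v q * v q) * Real.cos_sq_add_sin_sq (χ q)
  refine ⟨p, fun i => ?_, fun i r y => ?_, fun q => ?_, fun q A B => ?_, fun q => ?_,
    fun e y => ?_⟩
  · match i with
    | 0 | 1 | 2 | 3 => simp only [p]; fun_prop
    | _ + 4 => exact contDiff_const
  · match i with
    | 0 | 1 | 2 | 3 => simp only [p, χ0, uf r, vf r, wf r]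
    | _ + 4 => rfl
  · rw [pd]
    exact one_div_pos.2 (sp q)
  · rw [pd, gq_exp]
    have h1 : (p 3 q * A.1 - p 2 q * A.2) * (p 3 q * B.1 - p 2 q * B.2) +
        (p 0 q * A.2 - p 1 q * A.1) * (p 0 q * B.2 - p 1 q * B.1) =
        (w q * A.1 - v q * A.2) * (w q * B.1 - v q * B.2) +
        (u q * A.2 - v q * A.1) * (u q * B.2 - v q * B.1) := by
      simp only [p]
      linear_combination ((w q * A.1 - v q * A.2) * (w q * B.1 - v q * B.2) +
        (u q * A.2 - v q * A.1) * (u q * B.2 - v q * B.1)) * Real.cos_sq_add_sin_sq (χ q)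
    rw [h1]
    have k1 := s2 q
    have k2 := t2 q
    have k3 := (sp q).ne'
    have k4 := (tp q).ne'
    change (a q * _ + b q * _ + c q * _) * _ = _
    simp only [u, v, w]
    generalize s q = S at *
    generalize t q = T at *
    field_simp
    rw [k2]
    linear_combination -(A.1 * B.1 + A.2 * B.2) * k1
  · have h1 := dS_rot χs us vs q
    have h2 := dS_rot χs vs ws q
    have h3 := dq q
    have h4 := (sp q).ne'
    have h5 : s q * (u q * w q - v q * v q) = 1 := by rw [h3]; field_simp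
    simp only [p]
    rw [h1.1, h1.2, h2.1, h2.2, χd]
    linear_combination (u q * dS v q - v q * dS u q + v q * dS w q - w q * dS v q) *
      (1 - s q * (u q * w q - v q * v q)) * Real.cos_sq_add_sin_sq (χ q) -
      (u q * dS v q - v q * dS u q + v q * dS w q - w q * dS v q) * h5
  · simp only [p, χ1, Real.cos_zero, Real.sin_zero, one_mul, zero_mul, add_zero, sub_zero, true_and]
    exact div_pos (add_pos (cp _) (sp _)) (mul_pos (sp _) (tp _))

end Vale.Agent.P354R
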