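import Vale.Agent.P354R.Bg

/-!
Off the axis the background metric is isometric to Kerr; so it is a vacuum metric.
-/

open scoped ContDiff
open Set Filter Topology

set_option linter.unusedSectionVars false

namespace Vale.Agent.P354R

open Vale.Agent.P354n (R4)
open Par

lemma fderiv_R3 (f : R3 → ℝ) (c : R3) (α β : ℝ) :
    fderiv ℝ f c (0, α, β) = α * ds f c + β * dz f c := by
  have : ((0, α, β) : R3) = α • ((0, 1, 0) : R3) + β • ((0, 0, 1) : R3) := by simp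
  rw [this, map_add, map_smul, map_smul]
  rfl

lemma fderiv_arg0 (k d : ℝ) (σ : Bool) (p A : R4) : fderiv ℝ (arg k d σ) p A =
    (0, -(k * Real.exp (-k * p.1)) * A.1, dht σ p.2.2 A.2.2) := by
  refine line_eq ((arg_smooth σ).differentiable (by simp) p) ?_
  have h1 : HasDerivAt (fun t : ℝ => ht σ (p.2.2 + t • A.2.2)) (dht σ p.2.2 A.2.2) 0 := by
    rw [← fderiv_ht]
    exact ((ht_smooth σ).differentiable (by simp) _).hasFDerivAt.hasLineDerivAt A.2.2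
  have h := (hasDerivAt_const (0 : ℝ) d).prodMk (((lin1 p.1 A.1).const_mul (-k)).exp.prodMk h1)
  refine h.congr_deriv ?_
  simp only [zero_mul, add_zero, Prod.mk.injEq, true_and, and_true]
  ring

/-- the derivative of a function of (d, exp (- k tau), height) -/
lemma fderiv_arg {f : R3 → ℝ} (hf : ContDiff ℝ ∞ f) (k d : ℝ) (σ : Bool) (p A : R4) :
    fderiv ℝ (fun p => f (arg k d σ p)) p A =
      -(k * Real.exp (-k * p.1)) * A.1 * ds f (arg k d σ p) +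
        dht σ p.2.2 A.2.2 * dz f (arg k d σ p) := by
  have h := (dAt hf (arg k d σ p)).hasFDerivAt.comp p
    ((arg_smooth σ).differentiable (by simp) p).hasFDerivAt
  rw [show (fun p => f (arg k d σ p)) = f ∘ arg k d σ from rfl, h.fderiv,
    ContinuousLinearMap.comp_apply, fderiv_arg0, fderiv_R3]

lemma fderiv_argp {f : R3 → ℝ} (hf : ContDiff ℝ ∞ f) (k d : ℝ) (σ : Bool) (w A : R4) :
    fderiv ℝ (fun w => f (arg k d σ (pol w))) w A =
      -(k * Real.exp (-k * w.1)) * A.1 * ds f (arg k d σ (pol w)) +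
        dht σ (pol w).2.2 (fderiv ℝ pol w A).2.2 * dz f (arg k d σ (pol w)) := by
  have h := ((hf.comp (arg_smooth (k := k) (d := d) σ)).differentiable (by simp)
    (pol w)).hasFDerivAt.comp w (pol_smooth.differentiable (by simp) w).hasFDerivAt
  rw [show (fun w => f (arg k d σ (pol w))) = (f ∘ arg k d σ) ∘ pol from rfl, h.fderiv,
    ContinuousLinearMap.comp_apply]
  have e : (fderiv ℝ pol w A).1 = A.1 := by rw [fderiv_pol]
  have := fderiv_arg hf k d σ (pol w) (fderiv ℝ pol w A)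
  rw [e] at this
  exact this

lemma alg1 (a s w D x x' φ φ' : ℝ) (h1 : s - a ^ 2 * w ≠ 0) (h2 : s ^ 2 - a ^ 2 * w * D ≠ 0) :
    -(D / (s - a ^ 2 * w)) * ((x - a * w * φ) * (x' - a * w * φ')) +
      w / (s - a ^ 2 * w) * ((s * φ - a * x) * (s * φ' - a * x')) =
    -(D * (s - a ^ 2 * w) / (s ^ 2 - a ^ 2 * w * D)) * (x * x') +
      (s ^ 2 - a ^ 2 * w * D) / (s - a ^ 2 * w) * w *
        ((φ - a * (s - D) / (s ^ 2 - a ^ 2 * w * D) * x) *
          (φ' - a * (s - D) / (s ^ 2 - a ^ 2 * w * D) * x')) := by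
  generalize e1 : s - a ^ 2 * w = Sg at h1
  generalize e2 : s ^ 2 - a ^ 2 * w * D = AA at h2
  field_simp
  rw [← e1, ← e2]
  ring

lemma alg2 (Sg D w q p Z t t' u u' : ℝ) (_h1 : D ≠ 0) (h2 : w ≠ 0) (h3 : q ≠ 0)
    (h4 : q ^ 2 + D * w * p ^ 2 ≠ 0) :
    Sg / D * ((D / (q ^ 2 + D * w * p ^ 2) * q * t + u * -(D * p * Z / q)) *
        (D / (q ^ 2 + D * w * p ^ 2) * q * t' + u' * -(D * p * Z / q))) +
      Sg / w * ((D / (q ^ 2 + D * w * p ^ 2) * (w * p) * t + u * Z) *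
        (D / (q ^ 2 + D * w * p ^ 2) * (w * p) * t' + u' * Z)) =
    D * Sg / (q ^ 2 + D * w * p ^ 2) * (t * t') +
      Sg * (q ^ 2 + D * w * p ^ 2) * Z ^ 2 / (q ^ 2 * w) * (u * u') := by
  field_simp
  ring

namespace Par

variable (P : Par) (S : R3 → W4)

/-- the map to the Boyer-Lindquist coordinates -/
noncomputable def phi (d : ℝ) (σ : Bool) (w : R4) : R4 :=
  (w.2.1, P.rad S (arg P.k d σ (pol w)), zz S (arg P.k d σ (pol w)),
    w.2.2.2 - hh S (arg P.k d σ (pol w)) + P.a / (P.m ^ 2 + P.a ^ 2) * w.2.1)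

lemma Del_eq (r : ℝ) : Del ((P.m + P.R) / 2) P.a r = P.Dl r := by
  unfold Del Dl
  linear_combination P.ha

variable {P S} {ε : ℝ}

namespace Chr

variable (h : P.Chr ε S)
include h

lemma phi_smooth (d : ℝ) (σ : Bool) : ContDiff ℝ ∞ (P.phi S d σ) := by
  have h0 : ContDiff ℝ ∞ (arg P.k d σ) := arg_smooth σ
  have h1 := pol_smooth
  have h2 := h.rad_s
  have h3 := h.zz_s
  have h4 := h.hh_s
  unfold phi
  fun_prop

lemma fderiv_phi0 (d : ℝ) (σ : Bool) (w A : R4) : fderiv ℝ (P.phi S d σ) w A =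
    (A.2.1, fderiv ℝ (fun w => P.rad S (arg P.k d σ (pol w))) w A,
      fderiv ℝ (fun w => zz S (arg P.k d σ (pol w))) w A,
      A.2.2.2 - fderiv ℝ (fun w => hh S (arg P.k d σ (pol w))) w A +
        P.a / (P.m ^ 2 + P.a ^ 2) * A.2.1) := by
  have hl : ∀ f : R3 → ℝ, ContDiff ℝ ∞ f → HasDerivAt
      (fun t : ℝ => f (arg P.k d σ (pol (w + t • A))))
      (fderiv ℝ (fun w => f (arg P.k d σ (pol w))) w A) 0 := fun f hf =>
    (((hf.comp (arg_smooth σ)).comp pol_smooth).differentiable (by simp) w).hasFDerivAt.hasLineDerivAt A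
  refine line_eq ((h.phi_smooth d σ).differentiable (by simp) w) ?_
  exact (lin1 w.2.1 A.2.1).prodMk ((hl _ h.rad_s).prodMk ((hl _ h.zz_s).prodMk
    (((lin1 w.2.2.2 A.2.2.2).sub (hl _ h.hh_s)).add ((lin1 w.2.1 A.2.1).const_mul _))))

variable {d : ℝ} {σ : Bool} {w : R4} (hc : arg P.k d σ (pol w) ∈ box ε) (hd : 0 < d)
include hc hd

lemma fderiv_phi (A : R4) (c : R3) (e : c = arg P.k d σ (pol w)) (u : ℝ)
    (eu : u = dht σ (pol w).2.2 (fderiv ℝ pol w A).2.2) : fderiv ℝ (P.phi S d σ) w A =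
    (A.2.1, P.Dl (P.rad S c) / P.aA S c * P.qq (P.rad S c) c.2.2 * A.1 +
        u * -(P.Dl (P.rad S c) * pp S c * dz (zz S) c / P.qq (P.rad S c) c.2.2),
      P.Dl (P.rad S c) / P.aA S c * ((1 - zz S c ^ 2) * pp S c) * A.1 + u * dz (zz S) c,
      A.2.2.2 - (c.1 * c.2.1 * P.f4 S c * A.1 + u * dz (hh S) c) +
        P.a / (P.m ^ 2 + P.a ^ 2) * A.2.1) := by
  have hs : c.2.1 = Real.exp (-P.k * w.1) := by rw [e]; rfl
  have hd' : 0 < c.1 := by rw [e]; exact hd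
  rw [← e] at hc
  rw [h.fderiv_phi0, fderiv_argp h.rad_s, fderiv_argp h.zz_s, fderiv_argp h.hh_s, ← e, ← eu, ← hs,
    ← h.ks_rad hc, ← h.ks_zz hc, ← h.ks_hh hc, ← h.dz_rad hc hd' (hs ▸ Real.exp_pos _)]
  simp only [Prod.mk.injEq, true_and]
  refine ⟨by ring, by ring, by ring⟩

lemma phi_mem (hw : 0 < w.2.2.1) : P.phi S d σ w ∈ kdom ((P.m + P.R) / 2) P.a := by
  refine ⟨?_, (h.sg_pos hc).ne', ?_⟩
  · rw [Del_eq]
    exact (h.Dl_neg hc hd (Real.exp_pos _)).ne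
  · have := h.one_sub hc
    simp only [phi]
    rw [this]
    exact (mul_pos (one_sub_pos σ (pol_ne hw)) (P.eE_pos S _)).ne'

theorem iso {F : ℕ → R3 → ℝ} (hF : ∀ i, F i (arg P.k d σ (pol w)) = P.ff S i (arg P.k d σ (pol w)))
    (hw : 0 < w.2.2.1) (A B : R4) :
    bg P.k d F σ (pol w) (fderiv ℝ pol w A) (fderiv ℝ pol w B) =
      kbl ((P.m + P.R) / 2) P.a (P.phi S d σ w) (fderiv ℝ (P.phi S d σ) w A)
        (fderiv ℝ (P.phi S d σ) w B) := by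
  rw [h.fderiv_phi hc hd A _ rfl _ rfl, h.fderiv_phi hc hd B _ rfl _ rfl]
  have hw0 := one_sub_pos σ (pol_ne hw)
  have r1 := rnd_id σ (pol w).2.2 (hor P.k d F σ (pol w) (fderiv ℝ pol w A))
    (hor P.k d F σ (pol w) (fderiv ℝ pol w B))
  have r2 : rnd (pol w).2.2 (hor P.k d F σ (pol w) (fderiv ℝ pol w A))
      (hor P.k d F σ (pol w) (fderiv ℝ pol w B)) = _ / (1 - ht σ (pol w).2.2 ^ 2) :=
    (eq_div_iff hw0.ne').2 ((mul_comm _ _).trans r1)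
  have eA1 : ∀ A, (fderiv ℝ pol w A).1 = A.1 := fun A => by rw [fderiv_pol]
  have eA2 : ∀ A, (fderiv ℝ pol w A).2.1 = A.2.1 := fun A => by rw [fderiv_pol]
  unfold bg gam
  rw [r2]
  unfold hor
  simp only [dht_sub, alp_sub σ, alp_pol σ, eA1, eA2, hF, ff]
  have e0 : rho P.k d (pol w) = (arg P.k d σ (pol w)).1 * (arg P.k d σ (pol w)).2.1 := rfl
  have e1 : ht σ (pol w).2.2 = (arg P.k d σ (pol w)).2.2 := rfl
  have hs : 0 < (arg P.k d σ (pol w)).2.1 := Real.exp_pos _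
  have hd' : 0 < (arg P.k d σ (pol w)).1 := hd
  rw [e1] at hw0
  rw [e0, e1]
  simp only [kbl, phi, Del_eq]
  generalize arg P.k d σ (pol w) = c at *
  generalize dht σ (pol w).2.2 (fderiv ℝ pol w A).2.2 = u
  generalize dht σ (pol w).2.2 (fderiv ℝ pol w B).2.2 = u'
  have k0 := h.rho_f0 hc
  have k4 := h.rho_f4 hc
  have k2 := h.f2_id hc
  have kq := h.qA hc
  have kw := h.one_sub hc
  have kD := (h.Dl_neg hc hd' hs).ne
  have kS := (h.sg_pos hc).ne'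
  have kA : P.aA S c ≠ 0 := (h.A_pos hc).ne'
  have kE := (P.eE_pos S c).ne'
  have kq0 := (P.qq_pos (h.q_pos hc)).ne'
  have kQ : P.aQ S c = P.qq (P.rad S c) c.2.2 ^ 2 := (P.qq_sq (h.q_pos hc)).symm
  have eS : P.sg S c = P.rad S c ^ 2 + P.a ^ 2 - P.a ^ 2 * (1 - zz S c ^ 2) := by
    unfold sg; ring
  have eS' : Sig P.a (P.rad S c) (zz S c) = P.sg S c := rfl
  have eAA : P.aA S c = (P.rad S c ^ 2 + P.a ^ 2) ^ 2 -
    P.a ^ 2 * (1 - zz S c ^ 2) * P.Dl (P.rad S c) := rfl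
  change _ = P.aA S c at kq
  have kw1 : 1 - zz S c ^ 2 ≠ 0 := by rw [kw]; exact mul_ne_zero hw0.ne' kE
  have a1 := alg1 P.a (P.rad S c ^ 2 + P.a ^ 2) (1 - zz S c ^ 2) (P.Dl (P.rad S c)) A.2.1 B.2.1
    (A.2.2.2 - (c.1 * c.2.1 * P.f4 S c * A.1 + u * dz (hh S) c) + P.a / (P.m ^ 2 + P.a ^ 2) * A.2.1)
    (B.2.2.2 - (c.1 * c.2.1 * P.f4 S c * B.1 + u' * dz (hh S) c) + P.a / (P.m ^ 2 + P.a ^ 2) * B.2.1)
    (eS ▸ kS) (eAA ▸ kA)
  have a2 := alg2 (P.sg S c) (P.Dl (P.rad S c)) (1 - zz S c ^ 2) (P.qq (P.rad S c) c.2.2) (pp S c)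
    (dz (zz S) c) A.1 B.1 u u' kD kw1 kq0 (kq ▸ kA)
  rw [← eS, ← eAA] at a1
  rw [kq] at a2
  rw [eS', k0]
  have k5 : P.a * (P.rad S c ^ 2 + P.a ^ 2 - P.Dl (P.rad S c)) / P.aA S c =
      c.1 * c.2.1 * P.f4 S c + P.a / (P.m ^ 2 + P.a ^ 2) := by rw [k4]; ring
  rw [k5] at a1
  have k6 : P.aA S c / P.sg S c * (1 - zz S c ^ 2) = P.f1 S c * (1 - c.2.2 ^ 2) := by
    rw [kw]; unfold f1; ring
  have k7 : P.sg S c * P.aA S c * dz (zz S) c ^ 2 / (P.qq (P.rad S c) c.2.2 ^ 2 * (1 - zz S c ^ 2)) =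
      P.fL S c / (1 - c.2.2 ^ 2) := by
    rw [kw]; unfold fL; rw [kQ]; field_simp
  have k8 : P.f2 S c = (P.fL S c + P.f1 S c * (1 - c.2.2 ^ 2) ^ 2 * dz (hh S) c ^ 2 - P.f1 S c) /
      (1 - c.2.2 ^ 2) := by
    rw [eq_div_iff hw0.ne']
    linear_combination k2
  rw [k6] at a1
  rw [k7] at a2
  rw [k8]
  unfold f3
  have hw1 := hw0.ne'
  generalize 1 - c.2.2 ^ 2 = w0 at *
  have k9 : ∀ X Y : ℝ, P.f1 S c * ((u * u' + (w0 * X) * (w0 * Y)) / w0) =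
      P.f1 S c * (u * u') / w0 + P.f1 S c * w0 * (X * Y) := fun X Y => by field_simp
  have k10 : (P.fL S c + P.f1 S c * w0 ^ 2 * dz (hh S) c ^ 2 - P.f1 S c) / w0 =
      P.fL S c / w0 + P.f1 S c * w0 * dz (hh S) c ^ 2 - P.f1 S c / w0 := by field_simp
  have k11 := k9 (A.2.2.2 - c.1 * c.2.1 * P.f4 S c * (A.1 + A.2.1))
    (B.2.2.2 - c.1 * c.2.1 * P.f4 S c * (B.1 + B.2.1))
  rw [k10]
  linear_combination k11 - a1 - a2

end Chr

end Par

lemma Met.mono {g : R4 → R4 → R4 → ℝ} {D D' : Set R4} (h : Met g D) (hs : D' ⊆ D) : Met g D' :=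
  ⟨fun y hy => h.lin y (hs hy), fun y hy => h.symm y (hs hy), fun y hy => h.nondeg y (hs hy),
    fun a b => (h.smooth a b).mono hs⟩

lemma kdom_open (M a : ℝ) : IsOpen (kdom M a) := by
  have h1 : IsOpen {x : R4 | Del M a x.2.1 ≠ 0} :=
    isOpen_ne_fun (by unfold Del; fun_prop) continuous_const
  have h2 : IsOpen {x : R4 | Sig a x.2.1 x.2.2.1 ≠ 0} :=
    isOpen_ne_fun (by unfold Sig; fun_prop) continuous_const
  have h3 : IsOpen {x : R4 | 1 - x.2.2.1 ^ 2 ≠ 0} := isOpen_ne_fun (by fun_prop) continuous_const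
  exact h1.inter (h2.inter h3)

/-- the domains -/
def dom (k : ℝ) : Set R4 := {p | Real.exp (-k * p.1) < 3 / 2}
def pdom (k : ℝ) : Set R4 := {w | w ∈ dom k ∧ 0 < w.2.2.1}
def odom (k : ℝ) : Set R4 := {p | p ∈ dom k ∧ p.2.2 ≠ 0}

lemma dom_open (k : ℝ) : IsOpen (dom k) := isOpen_lt (by fun_prop) continuous_const
lemma pdom_open (k : ℝ) : IsOpen (pdom k) :=
  (dom_open k).inter (isOpen_lt (f := fun _ : R4 => (0 : ℝ)) continuous_const (by fun_prop))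
lemma odom_open (k : ℝ) : IsOpen (odom k) :=
  (dom_open k).inter (isOpen_ne_fun (f := fun p : R4 => p.2.2) (by fun_prop) continuous_const)

/-- the metric in polar coordinates -/
noncomputable def gP (g : R4 → R4 → R4 → ℝ) (w a b : R4) : ℝ :=
  g (pol w) (fderiv ℝ pol w a) (fderiv ℝ pol w b)

lemma pull_pol {g : R4 → R4 → R4 → ℝ} {k : ℝ} (hg : Met g univ) :
    Pull pol (gP g) (pdom k) g (odom k) :=
  ⟨pdom_open k, odom_open k, hg.mono (subset_univ _), pol_smooth.contDiffOn,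
    fun _ hw => ⟨hw.1, pol_ne hw.2⟩, fun _ hw => pol_inj hw.2, fun _ _ _ _ => rfl⟩

/-- The data of the construction. -/
structure Cons (P : Par) (ε : ℝ) (S : R3 → W4) (F : ℕ → R3 → ℝ) : Prop where
  chr : P.Chr ε S
  smooth : ∀ i, ContDiff ℝ ∞ (F i)
  flat : ∀ i s z, F i (0, s, z) = F i (0, 0, z)
  pos : ∀ d s, ∀ z ∈ Icc (-1 : ℝ) 1, 0 < F 0 (d, s, z) ∧ 0 < F 1 (d, s, z) ∧
    0 < F 1 (d, s, z) * (F 1 (d, s, z) + (1 - z ^ 2) * F 2 (d, s, z)) -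
      (1 - z ^ 2) ^ 2 * F 3 (d, s, z) ^ 2
  eq : ∀ i, ∀ c : R3, |c.1| ≤ ε / 2 → c.2.1 ∈ Icc (0 : ℝ) (3 / 2) → |c.2.2| ≤ 1 →
    c ∈ box ε ∧ F i c = P.ff S i c

theorem exists_cons (P : Par) : ∃ ε > 0, ∃ S F, Cons P ε S F := by
  obtain ⟨ε, hε, S, h⟩ := P.exists_chr
  obtain ⟨F, h1, h2, h3, h4⟩ := h.exists_F hε
  exact ⟨ε, hε, S, F, h, h1, h2, h3, h4⟩

namespace Cons

variable {P : Par} {ε : ℝ} {S : R3 → W4} {F : ℕ → R3 → ℝ} (h : Cons P ε S F) {d : ℝ}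
  (hd : d ∈ Ioo 0 (ε / 2)) (σ : Bool)
include h hd

lemma at_arg {p : R4} (hp : p ∈ dom P.k) :
    arg P.k d σ p ∈ box ε ∧ ∀ i, F i (arg P.k d σ p) = P.ff S i (arg P.k d σ p) := by
  have := fun i => h.eq i (arg P.k d σ p) (abs_le.2 ⟨by have := hd.1; have := hd.2; simp only [arg]; linarith,
    hd.2.le⟩) ⟨(Real.exp_pos _).le, le_of_lt hp⟩ (abs_ht σ _)
  exact ⟨(this 0).1, fun i => (this i).2⟩

lemma met (D : Set R4) : Met (bg P.k d F σ) D := bg_met σ h.smooth h.pos hd.1 D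

lemma pull_phi (hK : K1) : Pull (P.phi S d σ) (gP (bg P.k d F σ)) (pdom P.k)
    (kbl ((P.m + P.R) / 2) P.a) (kdom ((P.m + P.R) / 2) P.a) := by
  have hm := P354RC.k2.1 _ _ _ _ _ (pull_pol (k := P.k) (h.met hd σ univ))
  have hiso : ∀ w ∈ pdom P.k, ∀ a b, gP (bg P.k d F σ) w a b =
      kbl ((P.m + P.R) / 2) P.a (P.phi S d σ w) (fderiv ℝ (P.phi S d σ) w a)
        (fderiv ℝ (P.phi S d σ) w b) := fun w hw a b =>
    h.chr.iso (h.at_arg hd σ (p := pol w) hw.1).1 hd.1 (h.at_arg hd σ (p := pol w) hw.1).2 hw.2 a b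
  refine ⟨pdom_open _, kdom_open _ _, (hK _ _).1, (h.chr.phi_smooth d σ).contDiffOn,
    fun w hw => h.chr.phi_mem (h.at_arg hd σ (p := pol w) hw.1).1 hd.1 hw.2, fun w hw => ?_, hiso⟩
  refine (injective_iff_map_eq_zero _).2 fun A hA => hm.nondeg w hw A fun b => ?_
  rw [hiso w hw, hA]
  simp [kbl]

theorem vac (hK : K1) : Vac (bg P.k d F σ) (dom P.k) := by
  have h1 := P354RC.k2.2.1 _ _ _ _ _ (h.pull_phi hd σ hK) (hK _ _).2
  have h2 := P354RC.k2.2.2.1 _ _ _ _ _ (pull_pol (k := P.k) (h.met hd σ univ)) (fun p hp => by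
    obtain ⟨w, e, hw⟩ := pol_surj hp.2
    refine ⟨w, ⟨?_, hw⟩, e⟩
    have := hp.1
    rw [← e] at this
    exact this) h1
  refine P354RC.k2.2.2.2.1 _ _ _ (dom_open _) (odom_open _) (fun p hp => hp.1)
    (mem_closure_axis fun p hp q e => ?_) (h.met hd σ _) h2
  simp only [dom, mem_ofPred_eq, e]
  exact hp

end Cons

end Vale.Agent.P354R
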