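import Vale.Agent.P354A.Defs

/-!
Scaling and boundary values of the lifts lift1, lift2.
-/

open scoped ContDiff
open Set

namespace Vale.Agent.P354R

open Vale.Agent.P354C Vale.Agent.P354C.Ix
open Vale.Agent.P354A (U0 isQ)

/-- the power of mu in the unknown i -/
def nn : Ix → ℕ
  | .b1 | .b2 => 2
  | .O | .P11 | .P12 | .P21 | .P22 | .p1 | .p2 | .q1 | .q2 | .r1 | .r2 | .A1 | .A2 | .B1 | .B2
  | .be1 | .be2 | .bb1 | .bb2 => 1
  | _ => 0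

/-- The relations between the values and the scaled values. -/
structure Scal (μ : ℝ) (U V : Ix → ℝ) (dU dV : Fin 4 → Ix → ℝ) : Prop where
  val : ∀ i ∈ [O, b1, b2, P11, P12, P21, P22], U i = μ ^ nn i * V i
  d0 : ∀ i ∈ [O, P11, P12, P21, P22], dU 0 i = μ * dV 0 i
  d1 : ∀ i ∈ [O, P11, P12, P21, P22], dU 1 i = μ * dV 1 i
  d2 : ∀ i ∈ [O, P11, P12, P21, P22], dU 2 i = μ ^ 2 * dV 2 i
  d3 : ∀ i ∈ [O, P11, P12, P21, P22], dU 3 i = μ ^ 2 * dV 3 i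
  b1' : ∀ i ∈ [b1, b2], dU 1 i = μ ^ 2 * dV 1 i
  b2' : ∀ i ∈ [b1, b2], dU 2 i = μ * dV 2 i
  b3' : ∀ i ∈ [b1, b2], dU 3 i = μ * dV 3 i

lemma br2 (U : Ix → ℝ) (dU : Fin 4 → Ix → ℝ) (x y : Fin 4) :
    br U dU x y 2 = (U P22 * (dEof dU x y 2 - dEof dU y x 2) -
      U P21 * (dEof dU x y 3 - dEof dU y x 3)) / detP U ∧
    br U dU x y 3 = (U P11 * (dEof dU x y 3 - dEof dU y x 3) -
      U P12 * (dEof dU x y 2 - dEof dU y x 2)) / detP U := by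
  have h0 : ∀ x y : Fin 4, dEof dU x y 0 = 0 := fun x y => by fin_cases y <;> simp [dEof]
  have h1 : ∀ x y : Fin 4, dEof dU x y 1 = 0 := fun x y => by fin_cases y <;> simp [dEof]
  simp [br, th, vec, h0, h1]

lemma brA (U : Ix → ℝ) (dU : Fin 4 → Ix → ℝ) (x y : Fin 4) :
    br U dU x y 2 = (U P22 * (dEof dU x y 2 - dEof dU y x 2) -
      U P21 * (dEof dU x y 3 - dEof dU y x 3)) / (U P11 * U P22 - U P12 * U P21) :=
  (br2 U dU x y).1

lemma brB (U : Ix → ℝ) (dU : Fin 4 → Ix → ℝ) (x y : Fin 4) :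
    br U dU x y 3 = (U P11 * (dEof dU x y 3 - dEof dU y x 3) -
      U P12 * (dEof dU x y 2 - dEof dU y x 2)) / (U P11 * U P22 - U P12 * U P21) :=
  (br2 U dU x y).2

lemma dE_vals (dU : Fin 4 → Ix → ℝ) (k : Fin 4) :
    dEof dU k 0 2 = dU k b1 ∧ dEof dU k 0 3 = dU k b2 ∧ dEof dU k 1 2 = 0 ∧ dEof dU k 1 3 = 0 ∧
    dEof dU k 2 2 = dU k P11 ∧ dEof dU k 2 3 = dU k P12 ∧ dEof dU k 3 2 = dU k P21 ∧
    dEof dU k 3 3 = dU k P22 := ⟨rfl, rfl, rfl, rfl, rfl, rfl, rfl, rfl⟩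

theorem lift1_scale {μ : ℝ} {U V : Ix → ℝ} {dU dV : Fin 4 → Ix → ℝ} (h : Scal μ U V dU dV)
    (hμ : μ ≠ 0) (hO : V O ≠ 0) (hP : detP V ≠ 0) (i : Ix) :
    lift1 U dU i = μ ^ nn i * lift1 V dV i := by
  obtain ⟨h1, h2, h3, h4, h5, h6, h7, h8⟩ := h
  simp only [List.mem_cons, List.not_mem_nil, or_false, forall_eq_or_imp, forall_eq, nn,
    pow_one] at h1 h2 h3 h4 h5 h6 h7 h8
  unfold detP at hP
  have hP' : μ * V P11 * (μ * V P22) - μ * V P12 * (μ * V P21) =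
      μ ^ 2 * (V P11 * V P22 - V P12 * V P21) := by ring
  cases i <;> simp only [lift1, nn, brA, brB, dE_vals, h1, h2, h3, h4, h5, h6, h7, h8, hP',
    pow_one, pow_zero, one_mul, mul_zero] <;> field_simp <;> ring

theorem lift1_bdry {k : ℝ} {V : Ix → ℝ} {dV : Fin 4 → Ix → ℝ}
    (h0 : ∀ i ∈ [O, P11, P12, P21, P22], dV 0 i = -k / 2 * V i)
    (h1 : ∀ i ∈ [O, P11, P12, P21, P22], dV 1 i = -k / 2 * V i)
    (h2 : ∀ i ∈ [b1, b2], dV 2 i = 0) (h3 : ∀ i ∈ [b1, b2], dV 3 i = 0)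
    (hO : V O ≠ 0) (hP : detP V ≠ 0) (i : Ix) (hi : nn i = 0) : lift1 V dV i = U0 k i := by
  simp only [List.mem_cons, List.not_mem_nil, or_false, forall_eq_or_imp, forall_eq] at h0 h1 h2 h3
  unfold detP at hP
  have hP' : V P22 * V P11 - V P21 * V P12 ≠ 0 := fun h => hP (by linear_combination h)
  cases i <;> simp only [nn, OfNat.ofNat_ne_zero, one_ne_zero] at hi <;>
    simp only [lift1, U0, brA, brB, dE_vals, h0, h1, h2, h3] <;> field_simp <;> ring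

theorem lift1_W (V : Ix → ℝ) (dV : Fin 4 → Ix → ℝ) (i : Ix) (hi : isQ i) : lift1 V dV i = 0 := by
  cases i <;> simp only [isQ, Bool.false_eq_true] at hi <;> rfl

theorem lift1_smooth {X : Type} [NormedAddCommGroup X] [NormedSpace ℝ X] {V : X → Ix → ℝ}
    {dV : X → Fin 4 → Ix → ℝ} (hV : ∀ i, ContDiff ℝ ∞ fun x => V x i)
    (hd : ∀ j i, ContDiff ℝ ∞ fun x => dV x j i) (hO : ∀ x, V x O ≠ 0) (hP : ∀ x, detP (V x) ≠ 0)
    (i : Ix) : ContDiff ℝ ∞ fun x => lift1 (V x) (dV x) i := by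
  have h1 : ContDiff ℝ ∞ fun x => (V x O)⁻¹ := (hV O).inv hO
  have h2 : ContDiff ℝ ∞ fun x => (V x P11 * V x P22 - V x P12 * V x P21)⁻¹ :=
    ContDiff.inv (by fun_prop) hP
  cases i <;> simp only [lift1, brA, brB, dE_vals, div_eq_mul_inv] <;> fun_prop

theorem lift2_smooth {X : Type} [NormedAddCommGroup X] [NormedSpace ℝ X] {V : X → Ix → ℝ}
    {dV : X → Fin 4 → Ix → ℝ} (hV : ∀ i, ContDiff ℝ ∞ fun x => V x i)
    (hd : ∀ j i, ContDiff ℝ ∞ fun x => dV x j i) (i : Ix) :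
    ContDiff ℝ ∞ fun x => lift2 (V x) (dV x) i := by
  cases i <;> simp [lift2, curD, Gam, Wy, asym, Fin.sum_univ_four] <;> fun_prop

theorem lift2_bdry (k : ℝ) (i : Ix) : lift2 (U0 k) (fun _ _ => 0) i = U0 k i := by
  cases i <;> simp [lift2, curD, Gam, Wy, asym, Fin.sum_univ_four, U0]

theorem lift2_scale {μ : ℝ} {U V : Ix → ℝ} {dU dV : Fin 4 → Ix → ℝ}
    (h : ∀ i, U i = μ ^ nn i * V i)
    (h0 : ∀ i ∈ [A1, A2, B1, B2], dU 0 i = μ * dV 0 i)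
    (h1 : ∀ i ∈ [A1, A2, B1, B2], dU 1 i = μ * dV 1 i) (i : Ix) (hi : isQ i) :
    lift2 U dU i = μ * lift2 V dV i := by
  simp only [List.mem_cons, List.not_mem_nil, or_false, forall_eq_or_imp, forall_eq] at h0 h1
  cases i <;> simp only [isQ, Bool.false_eq_true] at hi <;>
    simp [lift2, curD, Gam, Wy, asym, Fin.sum_univ_four, h, h0, h1, nn] <;> ring

theorem lift2_bdryQ {k : ℝ} {V : Ix → ℝ} {dV : Fin 4 → Ix → ℝ}
    (h : ∀ i, nn i = 0 → V i = U0 k i) (hW : ∀ i, isQ i → V i = 0)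
    (h0 : ∀ i ∈ [A1, A2, B1, B2], dV 0 i = -k / 2 * V i)
    (h1 : ∀ i ∈ [A1, A2, B1, B2], dV 1 i = -k / 2 * V i) (i : Ix) (hi : isQ i) :
    lift2 V dV i = 0 := by
  simp only [List.mem_cons, List.not_mem_nil, or_false, forall_eq_or_imp, forall_eq] at h0 h1
  have e1 := h om rfl
  have e2 := h omb rfl
  have e3 := h r0 rfl
  have e4 : V X11 = 0 ∧ V X12 = 0 ∧ V X21 = 0 ∧ V X22 = 0 ∧ V Y11 = 0 ∧ V Y12 = 0 ∧ V Y21 = 0 ∧
      V Y22 = 0 := ⟨h _ rfl, h _ rfl, h _ rfl, h _ rfl, h _ rfl, h _ rfl, h _ rfl, h _ rfl⟩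
  simp only [U0] at e1 e2 e3
  cases i <;> simp only [isQ, Bool.false_eq_true] at hi <;>
    simp [lift2, curD, Gam, Wy, asym, Fin.sum_univ_four, h0, h1, e1, e2, e3, e4, hW be1 rfl, hW be2 rfl,
      hW bb1 rfl, hW bb2 rfl] <;> ring

theorem Full.constr {U : Ix → ℝ} {dU : Fin 4 → Ix → ℝ} (h : Full U dU) : Constr U dU :=
  ⟨fun s t μ => by simp only [h.tor, mul_zero, Finset.sum_const_zero],
    fun s => by simp only [h.dO, sub_self, mul_zero, Finset.sum_const_zero],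
    fun s t j k => by simp only [h.cur, mul_zero, Finset.sum_const_zero]⟩

end Vale.Agent.P354R
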