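import Vale.Agent.P265.H185.Flow

/-!
The characteristics of the eikonal equation in the Kerr interior, parametrised by
s = exp (- k tau), with smooth dependence on d = r0 - rm and on the label zeta.
-/

open scoped ContDiff
open Set Filter Topology

namespace Vale.Agent.P354R

abbrev R3 : Type := ℝ × ℝ × ℝ
abbrev W4 : Type := ℝ × ℝ × ℝ × ℝ

/-- A smooth function which is the identity on [-r, r] and has values in (-2r, 2r). -/
lemma exists_clamp {r : ℝ} (hr : 0 < r) : ∃ cl : ℝ → ℝ, ContDiff ℝ ∞ cl ∧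
    (∀ x, |x| ≤ r → cl x = x) ∧ ∀ x, |cl x| < 2 * r := by
  let χ : ContDiffBump (0 : ℝ) := ⟨r, 2 * r, hr, by linarith⟩
  refine ⟨fun x => χ x * x, χ.contDiff.mul contDiff_id, fun x hx => ?_, fun x => ?_⟩
  · have : χ x = 1 := χ.one_of_mem_closedBall (by simpa using hx)
    simp only [this, one_mul]
  · by_cases hx : |x| < 2 * r
    · have h0 : 0 ≤ χ x := χ.nonneg
      have h1 : χ x ≤ 1 := χ.le_one
      rw [abs_mul, abs_of_nonneg h0]
      nlinarith [abs_nonneg x]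
    · have : χ x = 0 := χ.zero_of_le_dist (by simpa using hx)
      simp only [this, zero_mul, abs_zero]
      linarith

/-- partial derivatives in s and in zeta -/
noncomputable def ds (f : R3 → ℝ) (c : R3) : ℝ := fderiv ℝ f c (0, 1, 0)
noncomputable def dz (f : R3 → ℝ) (c : R3) : ℝ := fderiv ℝ f c (0, 0, 1)

lemma hasDerivAt_ds {f : R3 → ℝ} {d s z : ℝ} (h : DifferentiableAt ℝ f (d, s, z)) :
    HasDerivAt (fun t => f (d, t, z)) (ds f (d, s, z)) s := by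
  have h1 : HasDerivAt (fun t : ℝ => ((d, t, z) : R3)) (0, 1, 0) s :=
    (hasDerivAt_const _ _).prodMk ((hasDerivAt_id _).prodMk (hasDerivAt_const _ _))
  exact HasFDerivAt.comp_hasDerivAt s (f := fun t : ℝ => ((d, t, z) : R3)) h.hasFDerivAt h1

lemma hasDerivAt_dz {f : R3 → ℝ} {d s z : ℝ} (h : DifferentiableAt ℝ f (d, s, z)) :
    HasDerivAt (fun t => f (d, s, t)) (dz f (d, s, z)) z := by
  have h1 : HasDerivAt (fun t : ℝ => ((d, s, t) : R3)) (0, 0, 1) z :=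
    (hasDerivAt_const _ _).prodMk ((hasDerivAt_const _ _).prodMk (hasDerivAt_id _))
  exact HasFDerivAt.comp_hasDerivAt z (f := fun t : ℝ => ((d, s, t) : R3)) h.hasFDerivAt h1

lemma smooth_dir {f : R3 → ℝ} (h : ContDiff ℝ ∞ f) (v : R3) :
    ContDiff ℝ ∞ (fun c => fderiv ℝ f c v) :=
  (h.fderiv_right (m := ∞) (by simp)).clm_apply contDiff_const

lemma ds_smooth {f : R3 → ℝ} (h : ContDiff ℝ ∞ f) : ContDiff ℝ ∞ (ds f) := smooth_dir h _
lemma dz_smooth {f : R3 → ℝ} (h : ContDiff ℝ ∞ f) : ContDiff ℝ ∞ (dz f) := smooth_dir h _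

lemma dAt {f : R3 → ℝ} (h : ContDiff ℝ ∞ f) (c : R3) : DifferentiableAt ℝ f c :=
  h.differentiable (by simp) c

lemma fderiv_dir {f : R3 → ℝ} (h : ContDiff ℝ ∞ f) (c v w : R3) :
    fderiv ℝ (fun c => fderiv ℝ f c v) c w = fderiv ℝ (fderiv ℝ f) c w v := by
  have h1 : DifferentiableAt ℝ (fderiv ℝ f) c :=
    (h.fderiv_right (m := ∞) (by simp)).differentiable (by simp) c
  rw [fderiv_clm_apply h1 (differentiableAt_const _)]
  simp

lemma two_le : (2 : WithTop ℕ∞) ≤ ∞ := WithTop.coe_le_coe.2 le_top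

lemma ds_dz {f : R3 → ℝ} (h : ContDiff ℝ ∞ f) (c : R3) : ds (dz f) c = dz (ds f) c := by
  have h2 : IsSymmSndFDerivAt ℝ f c := h.contDiffAt.isSymmSndFDerivAt (by simpa using two_le)
  unfold ds dz
  rw [fderiv_dir h, fderiv_dir h]
  exact h2 _ _

/-- The constants: a, the two roots m < R of Delta, and k. -/
structure Par where
  a : ℝ
  m : ℝ
  R : ℝ
  k : ℝ
  hm : 0 < m
  hR : m < R
  ha : a ^ 2 = m * R
  hk : k * (m ^ 2 + a ^ 2) = R - m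

namespace Par

variable (P : Par)

lemma a2_pos : 0 < P.a ^ 2 := by rw [P.ha]; exact mul_pos P.hm (P.hm.trans P.hR)

lemma m0_pos : 0 < P.m ^ 2 + P.a ^ 2 := by have := P.a2_pos; positivity

lemma k_pos : 0 < P.k := by
  have h1 := P.hk
  have h2 := P.m0_pos
  have h3 := P.hR
  by_contra h
  push Not at h
  nlinarith

def Dl (r : ℝ) : ℝ := (r - P.R) * (r - P.m)
def Q2 (r ζ : ℝ) : ℝ := (r ^ 2 + P.a ^ 2) ^ 2 - P.a ^ 2 * (1 - ζ ^ 2) * P.Dl r
noncomputable def qq (r ζ : ℝ) : ℝ := √(P.Q2 r ζ)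
noncomputable def GG (r ζ z : ℝ) : ℝ :=
  (-((r ^ 2 + P.a ^ 2) * (1 + P.k * (r + P.m))) +
    (P.R - r) ^ 2 * P.a ^ 2 * (1 - ζ ^ 2) / (P.qq r ζ + (r ^ 2 + P.a ^ 2)) -
    P.k * P.a ^ 2 * (P.R - r) * (1 - z ^ 2)) / (P.k * P.Q2 r z)
noncomputable def WW (r z : ℝ) : ℝ :=
  P.a * (-((P.m + P.R) ^ 2 * r) + (P.R - r) * (P.Dl r + 2 * (P.m + P.R) * r -
    P.a ^ 2 * (1 - z ^ 2))) / (P.Q2 r z * (P.m ^ 2 + P.a ^ 2))

/-- the radius -/
def rr (x : R3 × W4) : ℝ := P.m + x.1.2.1 * x.1.1 * x.2.1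

/-- the common factor -/
noncomputable def cc (x : R3 × W4) : ℝ :=
  x.1.1 * x.2.1 * (P.R - P.rr x) / (P.k * P.Q2 (P.rr x) x.2.2.1)

/-- the vector field: x = ((d, s, zeta), (eta, z, p, h)) -/
noncomputable def fld (x : R3 × W4) : W4 :=
  (x.1.1 * x.2.1 ^ 2 * P.GG (P.rr x) x.1.2.2 x.2.2.1,
    P.cc x * (1 - x.2.2.1 ^ 2) * x.2.2.2.1,
    P.cc x * x.2.2.1 * (x.2.2.2.1 ^ 2 + P.a ^ 2),
    -(x.1.1 * x.2.1 * P.WW (P.rr x) x.2.2.1 / P.k))

def U : Set (R3 × W4) := {x | 0 < P.Q2 (P.rr x) x.1.2.2 ∧ 0 < P.Q2 (P.rr x) x.2.2.1}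

lemma rr_smooth : ContDiff ℝ ∞ P.rr := by unfold rr; fun_prop

lemma Q2_smooth {X : Type} [NormedAddCommGroup X] [NormedSpace ℝ X] {f g : X → ℝ} {s : Set X}
    (hf : ContDiffOn ℝ ∞ f s) (hg : ContDiffOn ℝ ∞ g s) :
    ContDiffOn ℝ ∞ (fun x => P.Q2 (f x) (g x)) s := by
  unfold Q2 Dl; fun_prop

lemma qq_smooth {X : Type} [NormedAddCommGroup X] [NormedSpace ℝ X] {f g : X → ℝ} {s : Set X}
    (hf : ContDiffOn ℝ ∞ f s) (hg : ContDiffOn ℝ ∞ g s) (h : ∀ x ∈ s, 0 < P.Q2 (f x) (g x)) :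
    ContDiffOn ℝ ∞ (fun x => P.qq (f x) (g x)) s :=
  (P.Q2_smooth hf hg).sqrt fun x hx => (h x hx).ne'

lemma qq_pos {r ζ : ℝ} (h : 0 < P.Q2 r ζ) : 0 < P.qq r ζ := Real.sqrt_pos.2 h

lemma qq_sq {r ζ : ℝ} (h : 0 < P.Q2 r ζ) : P.qq r ζ ^ 2 = P.Q2 r ζ := Real.sq_sqrt h.le

lemma GG_smooth {X : Type} [NormedAddCommGroup X] [NormedSpace ℝ X] {f g z : X → ℝ} {s : Set X}
    (hf : ContDiffOn ℝ ∞ f s) (hg : ContDiffOn ℝ ∞ g s) (hz : ContDiffOn ℝ ∞ z s)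
    (h : ∀ x ∈ s, 0 < P.Q2 (f x) (g x)) (h' : ∀ x ∈ s, 0 < P.Q2 (f x) (z x)) :
    ContDiffOn ℝ ∞ (fun x => P.GG (f x) (g x) (z x)) s := by
  have h1 := P.qq_smooth hf hg h
  have h2 := P.Q2_smooth hf hz
  unfold GG
  refine ContDiffOn.div (ContDiffOn.sub (ContDiffOn.add (by fun_prop) (ContDiffOn.div
    (by fun_prop) (by fun_prop) fun x hx => ?_)) (by fun_prop)) (by fun_prop) fun x hx => ?_
  · have := P.qq_pos (h x hx)
    have := P.a2_pos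
    positivity
  · exact (mul_pos P.k_pos (h' x hx)).ne'

lemma WW_smooth {X : Type} [NormedAddCommGroup X] [NormedSpace ℝ X] {f z : X → ℝ} {s : Set X}
    (hf : ContDiffOn ℝ ∞ f s) (hz : ContDiffOn ℝ ∞ z s) (h' : ∀ x ∈ s, 0 < P.Q2 (f x) (z x)) :
    ContDiffOn ℝ ∞ (fun x => P.WW (f x) (z x)) s := by
  have h2 := P.Q2_smooth hf hz
  unfold WW Dl
  exact ContDiffOn.div (by fun_prop) (by fun_prop) fun x hx => (mul_pos (h' x hx) P.m0_pos).ne'

lemma fld_smooth : ContDiffOn ℝ ∞ P.fld P.U := by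
  have hr : ContDiffOn ℝ ∞ P.rr P.U := P.rr_smooth.contDiffOn
  have hζ : ContDiffOn ℝ ∞ (fun x : R3 × W4 => x.1.2.2) P.U := by fun_prop
  have hz : ContDiffOn ℝ ∞ (fun x : R3 × W4 => x.2.2.1) P.U := by fun_prop
  have h1 := P.GG_smooth hr hζ hz (fun x hx => hx.1) (fun x hx => hx.2)
  have h2 := P.WW_smooth hr hz (fun x hx => hx.2)
  have h3 := P.Q2_smooth hr hz
  have h4 : ContDiffOn ℝ ∞ P.cc P.U := by
    unfold cc
    exact ContDiffOn.div (by fun_prop) (by fun_prop) fun x hx => (mul_pos P.k_pos hx.2).ne'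
  unfold fld
  fun_prop

/-- near the inner horizon -/
lemma near : ∃ e > 0, ∀ r, |r - P.m| ≤ e → 0 < r ∧ r < P.R ∧ ∀ z, |z| ≤ 6 → 0 < P.Q2 r z := by
  have ha := P.a2_pos
  have hc : Continuous P.Dl := by unfold Dl; fun_prop
  have h0 : P.Dl P.m = 0 := by simp [Dl]
  have h1 : ∀ᶠ r in 𝓝 P.m, |P.Dl r| < P.a ^ 2 / 40 := by
    have := (continuous_abs.comp hc).continuousAt (x := P.m)
    refine this.eventually_lt continuousAt_const ?_
    simp only [Function.comp, h0, abs_zero]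
    positivity
  have h2 : ∀ᶠ r in 𝓝 P.m, r ∈ Ioo 0 P.R := Ioo_mem_nhds P.hm P.hR
  obtain ⟨e, he, h3⟩ := Metric.eventually_nhds_iff.1 (h1.and h2)
  refine ⟨e / 2, by linarith, fun r hr => ?_⟩
  obtain ⟨h4, h5⟩ := h3 (y := r) (by rw [Real.dist_eq]; linarith)
  refine ⟨h5.1, h5.2, fun z hz => ?_⟩
  have h6 : z ^ 2 ≤ 36 := by
    have := sq_abs z
    nlinarith [abs_nonneg z]
  have h7 : |(1 - z ^ 2) * P.Dl r| ≤ 35 * (P.a ^ 2 / 40) := by
    rw [abs_mul]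
    refine mul_le_mul (abs_le.2 ⟨by linarith, by nlinarith⟩) h4.le (abs_nonneg _) (by norm_num)
  have h8 := (abs_le.1 h7).2
  unfold Q2
  have h9 : (P.a ^ 2) ^ 2 ≤ (r ^ 2 + P.a ^ 2) ^ 2 := by nlinarith [sq_nonneg r]
  nlinarith

/-- The box of parameters (d, s, zeta). -/
def box (ε : ℝ) : Set R3 := {c | |c.1| < ε ∧ |c.2.1| < 2 ∧ |c.2.2| < 2}

lemma box_open (ε : ℝ) : IsOpen (box ε) := by
  have h1 : IsOpen {c : R3 | |c.1| < ε} := isOpen_lt (by fun_prop) (by fun_prop)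
  have h2 : IsOpen {c : R3 | |c.2.1| < 2} := isOpen_lt (by fun_prop) (by fun_prop)
  have h3 : IsOpen {c : R3 | |c.2.2| < 2} := isOpen_lt (by fun_prop) (by fun_prop)
  exact h1.inter (h2.inter h3)

/-- The family S (d, s, zeta) = (eta, z, p, h) of characteristics. -/
structure Chr (ε : ℝ) (S : R3 → W4) : Prop where
  smooth : ContDiff ℝ ∞ S
  init : ∀ d ζ, S (d, 1, ζ) = (1, ζ, 0, 0)
  flat : ∀ s ζ, S (0, s, ζ) = (1, ζ, 0, 0)
  mem : ∀ c ∈ box ε, (c, S c) ∈ P.U ∧ 0 < P.rr (c, S c) ∧ P.rr (c, S c) < P.R ∧ 0 < (S c).1 ∧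
    0 < dz (fun c => (S c).2.1) c
  ode : ∀ d s ζ, (d, s, ζ) ∈ box ε →
    HasDerivAt (fun t => S (d, t, ζ)) (P.fld ((d, s, ζ), S (d, s, ζ))) s

lemma fld_zero (x : R3 × W4) (h : x.1.1 = 0) : P.fld x = 0 := by
  simp [fld, cc, h]

theorem exists_chr : ∃ ε > 0, ∃ S, P.Chr ε S := by
  obtain ⟨e, he, hnear⟩ := P.near
  obtain ⟨c1, c1s, c1i, c1b⟩ := exists_clamp (r := e / 72) (by positivity)
  obtain ⟨c3, c3s, c3i, c3b⟩ := exists_clamp (r := 3) (by norm_num)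
  let cl : R3 × W4 → R3 × W4 := fun x =>
    ((c1 x.1.1, c3 x.1.2.1, c3 x.1.2.2), (c3 x.2.1, c3 x.2.2.1, c3 x.2.2.2.1, c3 x.2.2.2.2))
  have cls : ContDiff ℝ ∞ cl := by
    simp only [cl]
    fun_prop
  let K : Set (R3 × W4) := (Icc (-(e / 36)) (e / 36) ×ˢ Icc (-6) 6 ×ˢ Icc (-6) 6) ×ˢ
    (Icc (-6) 6 ×ˢ Icc (-6) 6 ×ˢ Icc (-6) 6 ×ˢ Icc (-6) 6)
  have hK : IsCompact K := (isCompact_Icc.prod (isCompact_Icc.prod isCompact_Icc)).prod
    (isCompact_Icc.prod (isCompact_Icc.prod (isCompact_Icc.prod isCompact_Icc)))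
  have hb3 : ∀ x, c3 x ∈ Icc (-6 : ℝ) 6 := fun x => by
    have := abs_lt.1 (c3b x)
    constructor <;> linarith [this.1, this.2]
  have hb1 : ∀ x, c1 x ∈ Icc (-(e / 36)) (e / 36) := fun x => by
    have := abs_lt.1 (c1b x)
    constructor <;> linarith [this.1, this.2]
  have clK : ∀ x, cl x ∈ K := fun x => ⟨⟨hb1 _, hb3 _, hb3 _⟩, hb3 _, hb3 _, hb3 _, hb3 _⟩
  have hKr : ∀ x ∈ K, |P.rr x - P.m| ≤ e := by
    rintro x ⟨⟨h1, h2, _⟩, h4, _⟩
    have e1 : P.rr x - P.m = x.1.2.1 * x.1.1 * x.2.1 := by unfold rr; ring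
    rw [e1, abs_mul, abs_mul]
    have a1 := abs_le.2 h1
    have a2 := abs_le.2 h2
    have a4 := abs_le.2 h4
    calc |x.1.2.1| * |x.1.1| * |x.2.1| ≤ 6 * (e / 36) * 6 := by gcongr
      _ = e := by ring
  have hKU : K ⊆ P.U := fun x hx =>
    ⟨(hnear _ (hKr x hx)).2.2 _ (abs_le.2 hx.1.2.2), (hnear _ (hKr x hx)).2.2 _ (abs_le.2 hx.2.2.1)⟩
  let Y : R3 × W4 → R3 × W4 := fun x => ((0, 1, 0), P.fld (cl x))
  have Ys : ContDiff ℝ ∞ Y :=
    contDiff_const.prodMk (P.fld_smooth.comp_contDiff cls fun x => hKU (clK x))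
  obtain ⟨C, hC⟩ := hK.exists_bound_of_continuousOn (P.fld_smooth.continuousOn.mono hKU)
  have Yb : ∀ x, ‖Y x‖ ≤ max 1 C := fun x => by
    rw [Prod.norm_def]
    refine max_le_max (by simp [Y, Prod.norm_def]) (hC _ (clK x))
  obtain ⟨Φ, Φs, Φ0, Φd, Φu⟩ := P265.H185.exists_global_flow Y Ys
    (fun z => P265.H185.exists_curve_of_bounded (Ys.of_le (by simp)) Yb z)
  have Φ1 : ∀ t x, (Φ t x).1 = x.1 + t • ((0, 1, 0) : R3) := fun t x => by
    have h1 : ∀ t, HasDerivAt (fun t => (Φ t x).1 - t • ((0, 1, 0) : R3)) 0 t := fun t => by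
      have h2 : HasDerivAt (fun t => (Φ t x).1) (0, 1, 0) t :=
        (ContinuousLinearMap.fst ℝ R3 W4).hasFDerivAt.comp_hasDerivAt t (Φd t x)
      have h3 : HasDerivAt (fun t : ℝ => t • ((0, 1, 0) : R3)) ((1 : ℝ) • (0, 1, 0)) t :=
        (hasDerivAt_id t).smul_const _
      have h5 := h2.sub h3
      rw [one_smul, sub_self] at h5
      exact h5
    have h4 := is_const_of_deriv_eq_zero (fun t => (h1 t).differentiableAt)
      (fun t => (h1 t).deriv) t 0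
    simp only [zero_smul, sub_zero, Φ0] at h4
    rw [← h4]
    simp
  let S : R3 → W4 := fun c => (Φ (c.2.1 - 1) ((c.1, 1, c.2.2), (1, c.2.2, 0, 0))).2
  have Ss : ContDiff ℝ ∞ S := by
    have h1 : ContDiff ℝ ∞ (fun c : R3 => ((c.2.1 - 1, ((c.1, 1, c.2.2), (1, c.2.2, 0, 0))) :
      ℝ × (R3 × W4))) := by fun_prop
    exact (Φs.comp h1).snd
  have hΦS : ∀ d s ζ, Φ (s - 1) ((d, 1, ζ), (1, ζ, 0, 0)) = ((d, s, ζ), S (d, s, ζ)) := by
    intro d s ζ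
    refine Prod.ext ?_ rfl
    rw [Φ1]
    simp
  have Sd : ∀ d s ζ, HasDerivAt (fun t => S (d, t, ζ)) (P.fld (cl ((d, s, ζ), S (d, s, ζ)))) s := by
    intro d s ζ
    have h1 := (Φd (s - 1) ((d, 1, ζ), (1, ζ, 0, 0))).scomp s ((hasDerivAt_id s).sub_const 1)
    have h2 := (ContinuousLinearMap.snd ℝ R3 W4).hasFDerivAt.comp_hasDerivAt s h1
    rw [hΦS] at h2
    simpa [Y, Function.comp_def] using h2
  have Si : ∀ d ζ, S (d, 1, ζ) = (1, ζ, 0, 0) := fun d ζ => by simp [S, Φ0]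
  have Sf : ∀ s ζ, S (0, s, ζ) = (1, ζ, 0, 0) := fun s ζ => by
    have h1 : ∀ s, HasDerivAt (fun t => S (0, t, ζ)) 0 s := fun s => by
      have := Sd 0 s ζ
      rwa [P.fld_zero _ (c1i 0 (by simp; positivity))] at this
    rw [is_const_of_deriv_eq_zero (fun t => (h1 t).differentiableAt) (fun t => (h1 t).deriv) s 1,
      Si]
  have Zs : ContDiff ℝ ∞ (fun c => (S c).2.1) := Ss.snd.fst
  have hZ0 : ∀ s ζ, dz (fun c => (S c).2.1) (0, s, ζ) = 1 := fun s ζ => by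
    have h1 := hasDerivAt_dz (dAt Zs (0, s, ζ))
    simp only [Sf] at h1
    exact h1.unique (hasDerivAt_id ζ)
  have hev : ∀ᶠ d in 𝓝 (0 : ℝ), ∀ y ∈ Icc (-2 : ℝ) 2 ×ˢ Icc (-2 : ℝ) 2,
      |d| < e / 72 ∧ ‖S (d, y)‖ < 3 ∧ 0 < (S (d, y)).1 ∧ 0 < dz (fun c => (S c).2.1) (d, y) := by
    refine (isCompact_Icc.prod isCompact_Icc).eventually_forall_of_forall_eventually ?_
    rintro ⟨s, ζ⟩ ⟨_, hζ⟩
    refine Eventually.and ?_ (Eventually.and ?_ (Eventually.and ?_ ?_))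
    · refine ContinuousAt.eventually_lt (by fun_prop) continuousAt_const ?_
      simp only [abs_zero]
      positivity
    · refine ContinuousAt.eventually_lt Ss.continuous.norm.continuousAt continuousAt_const ?_
      have := abs_le.2 hζ
      simp only [Sf, Prod.norm_def, Real.norm_eq_abs, abs_one, abs_zero, max_lt_iff]
      refine ⟨by norm_num, by linarith, by norm_num, by norm_num⟩
    · refine ContinuousAt.eventually_lt continuousAt_const Ss.continuous.fst.continuousAt ?_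
      simp only [Sf]
      norm_num
    · refine ContinuousAt.eventually_lt continuousAt_const (dz_smooth Zs).continuous.continuousAt ?_
      simp only [hZ0]
      norm_num
  obtain ⟨ε, hε, hev⟩ := Metric.eventually_nhds_iff.1 hev
  have key : ∀ c ∈ box ε, cl (c, S c) = (c, S c) ∧ 0 < (S c).1 ∧
      0 < dz (fun c => (S c).2.1) c := by
    rintro ⟨d, s, ζ⟩ ⟨h1, h2, h3⟩
    obtain ⟨k1, k2, k3, k4⟩ := hev (y := d) (by simpa using h1) (s, ζ)
      ⟨abs_le.1 h2.le, abs_le.1 h3.le⟩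
    refine ⟨?_, k3, k4⟩
    simp only [Prod.norm_def, Real.norm_eq_abs, max_lt_iff] at k2
    simp only [cl]
    rw [c1i _ k1.le, c3i s (by linarith), c3i ζ (by linarith), c3i _ k2.1.le, c3i _ k2.2.1.le,
      c3i _ k2.2.2.1.le, c3i _ k2.2.2.2.le]
  refine ⟨ε, hε, S, Ss, Si, Sf, fun c hc => ?_, fun d s ζ hc => ?_⟩
  · obtain ⟨k1, k2, k3⟩ := key c hc
    have hmem : (c, S c) ∈ K := k1 ▸ clK _
    exact ⟨hKU hmem, (hnear _ (hKr _ hmem)).1, (hnear _ (hKr _ hmem)).2.1, k2, k3⟩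
  · have := Sd d s ζ
    rwa [(key _ hc).1] at this

end Par

end Vale.Agent.P354R
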