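import Vale.Agent.P354R.Bnd
import Vale.Agent.P354R.Lift

/-!
The unknowns of the background as smooth functions of q = (e, s, y1, y2).
-/

open scoped ContDiff
open Set Filter Topology

set_option linter.unusedSectionVars false

namespace Vale.Agent.P354R

open Vale.Agent.P354n (R4)
open Vale.Agent.P354C Vale.Agent.P354C.Ix
open Vale.Agent.P354A (U0 isQ)

def mu (q : R4) : ℝ := q.1 * q.2.1

/-- the image of the vector a -/
noncomputable def Tq (k : ℝ) (q a : R4) : R4 := (0, -(k / 2 * q.2.1) * a.1, a.2.2)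

/-- the map from (tau, x, y) to q -/
noncomputable def qm (k e : ℝ) (p : R4) : R4 := (e, Real.exp (-k * p.1 / 2), p.2.2)

noncomputable def dQ (k : ℝ) (V : R4 → Ix → ℝ) (q : R4) (j : Fin 4) (i : Ix) : ℝ :=
  fderiv ℝ (fun z => V z i) q (Tq k q (fr (V q) j))

lemma mu_smooth : ContDiff ℝ ∞ mu := by unfold mu; fun_prop

lemma qm_smooth (k e : ℝ) : ContDiff ℝ ∞ (qm k e) := by unfold qm; fun_prop

lemma fderiv_qm (k e : ℝ) (p a : R4) : fderiv ℝ (qm k e) p a = Tq k (qm k e p) a := by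
  refine line_eq ((qm_smooth k e).differentiable (by simp) p) ?_
  have h1 : HasDerivAt (fun t : ℝ => p.2.2 + t • a.2.2) ((1 : ℝ) • a.2.2) 0 :=
    ((hasDerivAt_id (0 : ℝ)).smul_const _).const_add _
  have h := (hasDerivAt_const (0 : ℝ) e).prodMk
    ((((lin1 p.1 a.1).const_mul (-k)).div_const 2).exp.prodMk h1)
  refine h.congr_deriv ?_
  simp only [Tq, qm, zero_mul, add_zero, one_smul, Prod.mk.injEq, true_and, and_true]
  ring

lemma dfr_qm {V : R4 → Ix → ℝ} (hV : ∀ i, ContDiff ℝ ∞ fun q => V q i) (k e : ℝ) (p : R4) :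
    dfr (fun p => V (qm k e p)) p = dQ k V (qm k e p) := by
  funext j i
  have h := (dA (hV i) (qm k e p)).hasFDerivAt.comp p
    ((qm_smooth k e).differentiable (by simp) p).hasFDerivAt
  unfold dfr dQ
  rw [← fderiv_qm]
  exact DFunLike.congr_fun h.fderiv _

lemma fderiv_mu {f : R4 → ℝ} (hf : ContDiff ℝ ∞ f) (n : ℕ) (k : ℝ) (q a : R4) :
    fderiv ℝ (fun z => mu z ^ n * f z) q (Tq k q a) =
      mu q ^ n * (fderiv ℝ f q (Tq k q a) - n * (k / 2) * a.1 * f q) := by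
  have h1 : HasDerivAt (fun t : ℝ => mu (q + t • Tq k q a)) (-(k / 2 * a.1) * mu q) 0 := by
    refine ((lin1 q.1 0).mul (lin1 q.2.1 (-(k / 2 * q.2.1) * a.1))).congr_deriv ?_
    simp only [mu]
    ring
  have h2 := (dA hf q).hasFDerivAt.hasLineDerivAt (Tq k q a)
  refine line_eq (dA ((mu_smooth.pow n).mul hf) q) (((h1.pow n).mul h2).congr_deriv ?_)
  simp only [Pi.pow_apply, zero_smul, add_zero]
  cases n with
  | zero => simp
  | succ n =>
    simp only [Nat.add_sub_cancel]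
    ring

lemma fr_smooth {V : R4 → Ix → ℝ} (hV : ∀ i, ContDiff ℝ ∞ fun q => V q i) (j : Fin 4) :
    ContDiff ℝ ∞ fun q => fr (V q) j := by
  fin_cases j <;> simp [fr, vec, E] <;> fun_prop

lemma dT_smooth {f : R4 → ℝ} (hf : ContDiff ℝ ∞ f) {a : R4 → R4} (ha : ContDiff ℝ ∞ a) (k : ℝ) :
    ContDiff ℝ ∞ fun q => fderiv ℝ f q (Tq k q (a q)) :=
  (hf.fderiv_right (m := ∞) (by simp)).clm_apply (by unfold Tq; fun_prop)

lemma fr0 (U : Ix → ℝ) : fr U 0 = (1, 1, U b1, U b2) := rfl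
lemma fr1 (U : Ix → ℝ) : fr U 1 = (1, -1, 0, 0) := rfl
lemma fr2 (U : Ix → ℝ) : fr U 2 = (0, 0, U P11, U P12) := rfl
lemma fr3 (U : Ix → ℝ) : fr U 3 = (0, 0, U P21, U P22) := rfl

section

variable (k : ℝ) (F : ℕ → R3 → ℝ) (σ : Bool) (p : ℕ → R4 → ℝ)

noncomputable def oh (q : R4) : ℝ := √(F 0 (arQ σ q))

noncomputable def Vh (q : R4) : Ix → ℝ
  | .O => oh F σ q
  | .b1 => -(2 * F 4 (arQ σ q) * q.2.2.2)
  | .b2 => 2 * F 4 (arQ σ q) * q.2.2.1
  | .P11 => oh F σ q * p 0 q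
  | .P12 => oh F σ q * p 1 q
  | .P21 => oh F σ q * p 2 q
  | .P22 => oh F σ q * p 3 q
  | _ => 0

noncomputable def V0 (q : R4) (i : Ix) : ℝ := mu q ^ nn i * Vh F σ p q i

noncomputable def dh (q : R4) (j : Fin 4) (i : Ix) : ℝ :=
  if j = 0 ∨ j = 1 then fderiv ℝ (fun z => Vh F σ p z i) q (Tq k q (fr (V0 F σ p q) j)) -
    nn i * (k / 2) * Vh F σ p q i
  else mu q ^ (2 * (nn i - 1)) * fderiv ℝ (fun z => Vh F σ p z i) q (Tq k q (fr (Vh F σ p q) j))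

noncomputable def Gh (q : R4) : Ix → ℝ := lift1 (Vh F σ p q) (dh k F σ p q)
noncomputable def G1 (q : R4) (i : Ix) : ℝ := mu q ^ nn i * Gh k F σ p q i
noncomputable def G2 (q : R4) : Ix → ℝ := lift2 (G1 k F σ p q) (dQ k (G1 k F σ p) q)
noncomputable def dH (q : R4) (j : Fin 4) (i : Ix) : ℝ :=
  fderiv ℝ (fun z => Gh k F σ p z i) q (Tq k q (fr (G1 k F σ p q) j)) - k / 2 * Gh k F σ p q i
noncomputable def HH (q : R4) : Ix → ℝ := lift2 (Gh k F σ p q) (dH k F σ p q)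

end

/-- the hypotheses -/
structure Hyp (F : ℕ → R3 → ℝ) (σ : Bool) (p : ℕ → R4 → ℝ) : Prop where
  smooth : ∀ i, ContDiff ℝ ∞ (F i)
  flat : ∀ i s z, F i (0, s, z) = F i (0, 0, z)
  pos : ∀ d s, ∀ z ∈ Icc (-1 : ℝ) 1, 0 < F 0 (d, s, z)
  fr : Fr F σ p

namespace Hyp

variable {F : ℕ → R3 → ℝ} {σ : Bool} {p : ℕ → R4 → ℝ} (h : Hyp F σ p) (k : ℝ)
include h

lemma F0_pos (q : R4) : 0 < F 0 (arQ σ q) := h.pos _ _ _ (ht_mem σ _)

lemma oh_pos (q : R4) : 0 < oh F σ q := Real.sqrt_pos.2 (h.F0_pos q)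

lemma oh_s : ContDiff ℝ ∞ (oh F σ) :=
  ((h.smooth 0).comp (arQ_smooth σ)).sqrt fun q => (h.F0_pos q).ne'

lemma Vh_s (i : Ix) : ContDiff ℝ ∞ fun q => Vh F σ p q i := by
  have h1 := h.oh_s
  have h2 := h.fr.smooth
  have h3 := h.smooth 4
  have h4 := arQ_smooth σ
  cases i <;> simp only [Vh] <;> fun_prop

lemma V0_s (i : Ix) : ContDiff ℝ ∞ fun q => V0 F σ p q i := (mu_smooth.pow _).mul (h.Vh_s i)

lemma Vh_flat (i : Ix) : Flat fun q => Vh F σ p q i := fun s y => by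
  have h1 := fun i => h.fr.flat i s y
  cases i <;> simp only [Vh, oh, arQ, ne_eq, OfNat.ofNat_ne_zero, not_false_eq_true, zero_pow,
    h.flat _ (s ^ 2), h1]

lemma det_pos (q : R4) : 0 < detP (Vh F σ p q) := by
  have h1 := mul_pos (pow_pos (h.oh_pos q) 2) (h.fr.det q)
  simp only [detP, Vh]
  linarith

lemma dh_s (j : Fin 4) (i : Ix) : ContDiff ℝ ∞ fun q => dh k F σ p q j i := by
  unfold dh
  split_ifs
  · exact (dT_smooth (h.Vh_s i) (fr_smooth h.V0_s j) k).sub (contDiff_const.mul (h.Vh_s i))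
  · exact (mu_smooth.pow _).mul (dT_smooth (h.Vh_s i) (fr_smooth h.Vh_s j) k)

lemma Gh_s (i : Ix) : ContDiff ℝ ∞ fun q => Gh k F σ p q i :=
  lift1_smooth h.Vh_s (h.dh_s k) (fun q => (h.oh_pos q).ne') (fun q => (h.det_pos q).ne') i

lemma G1_s (i : Ix) : ContDiff ℝ ∞ fun q => G1 k F σ p q i := (mu_smooth.pow _).mul (h.Gh_s k i)

lemma G2_s (i : Ix) : ContDiff ℝ ∞ fun q => G2 k F σ p q i :=
  lift2_smooth (h.G1_s k) (fun j i => dT_smooth (h.G1_s k i) (fr_smooth (h.G1_s k) j) k) i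

lemma HH_s (i : Ix) : ContDiff ℝ ∞ fun q => HH k F σ p q i :=
  lift2_smooth (h.Gh_s k) (fun j i => (dT_smooth (h.Gh_s k i) (fr_smooth (h.G1_s k) j) k).sub
    (contDiff_const.mul (h.Gh_s k i))) i

lemma d01 (q : R4) (j : Fin 4) (hj : j = 0 ∨ j = 1) (i : Ix) :
    dQ k (V0 F σ p) q j i = mu q ^ nn i * dh k F σ p q j i := by
  have e : (P354C.fr (V0 F σ p q) j).1 = 1 := by rcases hj with rfl | rfl <;> rfl
  unfold dQ dh
  rw [if_pos hj]
  have := fderiv_mu (h.Vh_s i) (nn i) k q (P354C.fr (V0 F σ p q) j)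
  rw [e, mul_one] at this
  exact this

lemma d23 (q : R4) (j : Fin 4) (hj : j = 2 ∨ j = 3) (i : Ix) :
    dQ k (V0 F σ p) q j i = mu q ^ (nn i + 1) *
      fderiv ℝ (fun z => Vh F σ p z i) q (Tq k q (P354C.fr (Vh F σ p q) j)) := by
  have e : (P354C.fr (V0 F σ p q) j).1 = 0 := by rcases hj with rfl | rfl <;> rfl
  have e2 : Tq k q (P354C.fr (V0 F σ p q) j) = mu q • Tq k q (P354C.fr (Vh F σ p q) j) := by
    rcases hj with rfl | rfl <;> simp [Tq, fr2, fr3, V0, nn]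
  have := fderiv_mu (h.Vh_s i) (nn i) k q (P354C.fr (V0 F σ p q) j)
  rw [e, mul_zero, zero_mul, sub_zero] at this
  unfold dQ
  refine this.trans ?_
  rw [e2, map_smul, smul_eq_mul]
  ring

lemma scal (q : R4) : Scal (mu q) (V0 F σ p q) (Vh F σ p q) (dQ k (V0 F σ p) q) (dh k F σ p q) := by
  have a2 := h.d23 k q 2 (Or.inl rfl)
  have a3 := h.d23 k q 3 (Or.inr rfl)
  have a0 := h.d01 k q 0 (Or.inl rfl)
  have a1 := h.d01 k q 1 (Or.inr rfl)
  refine ⟨fun i _ => rfl, ?_, ?_, ?_, ?_, ?_, ?_, ?_⟩ <;>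
    simp only [List.mem_cons, List.not_mem_nil, or_false, forall_eq_or_imp, forall_eq, a0, a1, a2,
      a3, nn, pow_one, and_self]
  all_goals simp [dh, nn]
  all_goals constructor <;> ring

lemma lift1_V0 {q : R4} (hq : mu q ≠ 0) :
    lift1 (V0 F σ p q) (dQ k (V0 F σ p) q) = G1 k F σ p q :=
  funext fun i => lift1_scale (h.scal k q) hq (h.oh_pos q).ne' (h.det_pos q).ne' i

/-- derivatives along l and n vanish on the boundary -/
lemma T_bdry {f : R4 → ℝ} (hf : ContDiff ℝ ∞ f) (hfl : Flat f) {q : R4} (hq : q.1 = 0 ∨ q.2.1 = 0)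
    {a : R4} (ha : a.2.2 = 0) : fderiv ℝ f q (Tq k q a) = 0 := by
  obtain ⟨e, s, y⟩ := q
  have e1 : Tq k (e, s, y) a = (-(k / 2 * s) * a.1) • ((0, 1, 0, 0) : R4) := by
    simp [Tq, ha, show ((0, 0) : ℝ × ℝ) = 0 from rfl]
  rw [e1, map_smul, smul_eq_mul]
  rcases hq with hq | hq
  · simp only at hq
    subst hq
    have := hfl.dS hf s y
    unfold dS at this
    rw [this, mul_zero]
  · simp only at hq
    subst hq
    simp

omit h in
lemma mu_bdry {q : R4} (hq : q.1 = 0 ∨ q.2.1 = 0) : mu q = 0 := mul_eq_zero.2 hq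

lemma Gh_bdry {q : R4} (hq : q.1 = 0 ∨ q.2.1 = 0) (i : Ix) (hi : nn i = 0) :
    Gh k F σ p q i = U0 k i := by
  have hm := mu_bdry hq
  have a0 : ∀ i, fderiv ℝ (fun z => Vh F σ p z i) q (Tq k q (P354C.fr (V0 F σ p q) 0)) = 0 :=
    fun i => h.T_bdry k (h.Vh_s i) (h.Vh_flat i) hq (by simp [fr0, V0, nn, hm])
  have a1 : ∀ i, fderiv ℝ (fun z => Vh F σ p z i) q (Tq k q (P354C.fr (V0 F σ p q) 1)) = 0 :=
    fun i => h.T_bdry k (h.Vh_s i) (h.Vh_flat i) hq rfl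
  refine lift1_bdry ?_ ?_ ?_ ?_ (h.oh_pos q).ne' (h.det_pos q).ne' i hi <;>
    simp [dh, a0, a1, nn, hm, neg_div]

lemma G1_bdry {q : R4} (hq : q.1 = 0 ∨ q.2.1 = 0) : G1 k F σ p q = U0 k := by
  funext i
  unfold G1
  by_cases hi : nn i = 0
  · rw [hi, pow_zero, one_mul, h.Gh_bdry k hq i hi]
  · rw [mu_bdry hq, zero_pow hi, zero_mul]
    cases i <;> first | rfl | exact absurd rfl hi

lemma G2_bdry {q : R4} (hq : q.1 = 0 ∨ q.2.1 = 0) (i : Ix) : G2 k F σ p q i = U0 k i := by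
  have h1 : dQ k (G1 k F σ p) q = fun _ _ => 0 := by
    funext j i
    refine fderiv_zero_line (h.G1_s k i) (c := U0 k i) fun t => ?_
    rw [h.G1_bdry k]
    rcases hq with hq | hq
    · left
      simp [Tq, hq]
    · right
      simp [Tq, hq]
  unfold G2
  rw [h1, h.G1_bdry k hq, lift2_bdry]

lemma G2_Q (q : R4) (i : Ix) (hi : isQ i) : G2 k F σ p q i = mu q * HH k F σ p q i := by
  have a : ∀ j, j = 0 ∨ j = 1 → ∀ i, nn i = 1 →
      dQ k (G1 k F σ p) q j i = mu q * dH k F σ p q j i := fun j hj i hi => by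
    have e : (P354C.fr (G1 k F σ p q) j).1 = 1 := by rcases hj with rfl | rfl <;> rfl
    have := fderiv_mu (h.Gh_s k i) (nn i) k q (P354C.fr (G1 k F σ p q) j)
    rw [e] at this
    refine this.trans ?_
    simp [hi, dH]
  refine lift2_scale (fun _ => rfl) ?_ ?_ i hi <;>
    simp only [List.mem_cons, List.not_mem_nil, or_false, forall_eq_or_imp, forall_eq]
  · exact ⟨a 0 (Or.inl rfl) _ rfl, a 0 (Or.inl rfl) _ rfl, a 0 (Or.inl rfl) _ rfl,
      a 0 (Or.inl rfl) _ rfl⟩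
  · exact ⟨a 1 (Or.inr rfl) _ rfl, a 1 (Or.inr rfl) _ rfl, a 1 (Or.inr rfl) _ rfl,
      a 1 (Or.inr rfl) _ rfl⟩

lemma HH_bdry {q : R4} (hq : q.2.1 = 0) (i : Ix) (hi : isQ i) : HH k F σ p q i = 0 := by
  have h1 := h.G1_bdry k (Or.inr hq)
  have a0 : Tq k q (P354C.fr (G1 k F σ p q) 0) = 0 := by
    rw [h1]
    simp [Tq, hq, fr0, U0]
  have a1 : Tq k q (P354C.fr (G1 k F σ p q) 1) = 0 := by simp [Tq, hq, fr1]
  refine lift2_bdryQ (k := k) (h.Gh_bdry k (Or.inr hq)) (lift1_W _ _) ?_ ?_ i hi <;>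
    simp [dH, a0, a1, neg_div]

end Hyp

end Vale.Agent.P354R
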